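import Vale.Agent.P128.B4.Main

/-! P128 B5/Ann (TASK): basic length estimates for global minimizers with zero gradient.

Plan. `b5_ann`: `eilenberg_sphere` with `I = Ioo a b`; `K ∩ ball y b` contains the disjoint sets
`K ∩ closedBall y a` and `K ∩ {z | dist z y ∈ Ioo a b}` (`measure_union`); `lintegral_mono_ae`,
`setLIntegral_const`; `AM0.upper_real` for finiteness (for `a = 0` bound by monotonicity).
`b5_T6`: `T6` with `Dp u K y s = 0` (the integrand vanishes on `offK`; `setLIntegral_congr_fun`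
needs measurability of `offK`, or use `lintegral_eq_zero_iff'`/`setLIntegral_eq_zero`).
`b5_two_le`: `N = 0` contradicts `NC1` with `GM.noPiece`. If `K ∩ sphere x r = {p}`, `b5_T6` with
`O` the midpoint of `x` and `p` gives `lenc ≤ r/2`, while the component of `x` in
`K ∩ closedBall x r` meets the sphere (`NC1`), so `cont_len` gives `lenc ≥ r`.
`b5_LB2`: `b5_ann` with `a = 0`, `m = 2`, `diz_fin`. -/

namespace Vale.Agent.P128

open MeasureTheory Set Metric Filter Topology
open scoped ENNReal NNReal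

variable {c : ℝ} {u : ℂ → ℝ} {K : Set ℂ}

theorem b5_ann (h : GM c u K) (y : ℂ) {a b m : ℝ} (ha : 0 ≤ a) (hab : a < b) (hm : 0 ≤ m)
    (hN : ∀ᵐ s ∂(volume.restrict (Ioo a b)),
      ENNReal.ofReal m ≤ ((K ∩ sphere y s).encard : ℝ≥0∞)) :
    lenc K y a + m * (b - a) ≤ len K y b := by
  have hb : 0 < b := ha.trans_lt hab
  have hf : μH[1] (K ∩ ball y b) ≠ ∞ := by
    rw [(h.toAM0.upper_real hb (subset_univ _)).2.2.2.1]
    exact ENNReal.ofReal_ne_top
  have h1 : ENNReal.ofReal (m * (b - a)) ≤ μH[1] (K ∩ {z | dist z y ∈ Ioo a b}) := by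
    refine le_trans ?_ ((eilenberg_sphere h.closed y).2 _ measurableSet_Ioo)
    refine le_trans (le_of_eq ?_) (lintegral_mono_ae hN)
    rw [setLIntegral_const, Real.volume_Ioo, ENNReal.ofReal_mul hm]
  have hc : Continuous fun z : ℂ => dist z y := continuous_id.dist continuous_const
  have h2 : μH[1] (K ∩ closedBall y a) + μH[1] (K ∩ {z | dist z y ∈ Ioo a b}) ≤
      μH[1] (K ∩ ball y b) := by
    have hd : Disjoint (K ∩ closedBall y a) (K ∩ {z | dist z y ∈ Ioo a b}) :=
      Set.disjoint_left.2 fun z h3 h4 => not_lt.2 (mem_closedBall.1 h3.2) h4.2.1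
    have hm' : MeasurableSet (K ∩ {z | dist z y ∈ Ioo a b}) :=
      h.closed.measurableSet.inter (isOpen_Ioo.preimage hc).measurableSet
    rw [← measure_union hd hm']
    refine measure_mono (union_subset (fun z hz => ⟨hz.1, ?_⟩) fun z hz => ⟨hz.1, hz.2.2⟩)
    exact closedBall_subset_ball hab hz.2
  have h3 := (add_le_add le_rfl h1).trans h2
  have h4 := ENNReal.toReal_mono hf h3
  rwa [ENNReal.toReal_add (ne_top_of_le_ne_top hf (le_self_add.trans h3)) ENNReal.ofReal_ne_top,
    ENNReal.toReal_ofReal (mul_nonneg hm (sub_nonneg.2 hab.le))] at h4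

theorem b5_T6 (h : GM c u K) (h0 : ∀ z ∉ K, fderiv ℝ u z = 0) {y : ℂ} {s : ℝ} (hs : 0 < s)
    {P : Finset ℂ} (hP : (P : Set ℂ) = K ∩ sphere y s) {O : ℂ} (hO : O ∈ closedBall y (s / 2)) :
    lenc K y s ≤ ∑ p ∈ P, dist p O := by
  have h1 := T6 h.toAM0 hs (subset_univ _) hP hO
  have h2 : Dp u K y s = 0 := by
    have hm : MeasurableSet (offK K y s) := measurableSet_Ioc.inter
      (h.closed.isOpen_compl.preimage (continuous_circleMap y s)).measurableSet
    refine setLIntegral_eq_zero hm fun θ hθ => ?_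
    show ENNReal.ofReal s * ‖fderiv ℝ u (circleMap y s θ)‖ₑ ^ 2 = 0
    rw [h0 _ hθ.2, ← ofReal_norm, norm_zero]
    simp
  rw [h2, mul_zero, add_zero, zero_mul, zero_mul, ENNReal.ofReal_zero, add_zero] at h1
  exact ENNReal.toReal_le_of_le_ofReal (Finset.sum_nonneg fun _ _ => dist_nonneg)
    (le_add_self.trans h1)

theorem b5_T6_center (h : GM c u K) (h0 : ∀ z ∉ K, fderiv ℝ u z = 0) {y : ℂ} {s : ℝ}
    (hs : 0 < s) {P : Finset ℂ} (hP : (P : Set ℂ) = K ∩ sphere y s) :
    lenc K y s ≤ P.card * s := by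
  refine (b5_T6 h h0 hs hP (mem_closedBall_self (half_pos hs).le)).trans (le_of_eq ?_)
  rw [← nsmul_eq_mul, ← Finset.sum_const]
  refine Finset.sum_congr rfl fun p hp => ?_
  have : p ∈ K ∩ sphere y s := hP ▸ Finset.mem_coe.2 hp
  exact this.2

theorem b5_two_le (h : GM c u K) (h0 : ∀ z ∉ K, fderiv ℝ u z = 0) {x : ℂ} (hx : x ∈ K) {r : ℝ}
    (hr : 0 < r) (hfin : (K ∩ sphere x r).Finite) : 2 ≤ (K ∩ sphere x r).encard := by
  by_contra hn
  have h1 : (K ∩ sphere x r).Subsingleton := by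
    rw [← encard_le_one_iff_subsingleton]
    exact Order.le_of_lt_add_one (by rw [one_add_one_eq_two]; exact not_le.1 hn)
  have hx' : x ∈ K ∩ closedBall x r := ⟨hx, mem_closedBall_self hr.le⟩
  obtain ⟨q, hq, hq'⟩ := NC1 h.closed h.noPiece hx'
  have hqK : q ∈ K ∩ sphere x r := ⟨(connectedComponentIn_subset _ _ hq).1, hq'⟩
  have hd : dist q x = r := hq'
  have h2 := b5_T6 h h0 hr (P := {q}) (by rw [Finset.coe_singleton, h1.eq_singleton_of_mem hqK])
    (O := midpoint ℝ x q) (by
      rw [mem_closedBall, dist_midpoint_left, dist_comm, hd, Real.norm_two]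
      linarith)
  rw [Finset.sum_singleton, dist_right_midpoint, dist_comm, hd, Real.norm_two] at h2
  have h3 := (cont_len isPreconnected_connectedComponentIn (mem_connectedComponentIn hx') hq
    hd.ge).trans (measure_mono (t := K ∩ closedBall x r) fun z hz =>
      connectedComponentIn_subset _ _ hz.1)
  obtain ⟨-, -, h4, -, -, -, h5, h6, -⟩ := h.toAM0.upper_real hr (subset_univ (closedBall x r))
  rw [h4, ENNReal.ofReal_le_ofReal_iff (h5.trans h6)] at h3
  linarith

theorem b5_LB2 (h : GM c u K) (h0 : ∀ z ∉ K, fderiv ℝ u z = 0) {x : ℂ} (hx : x ∈ K) {r : ℝ}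
    (hr : 0 < r) : 2 * r ≤ len K x r := by
  have h1 := b5_ann h x le_rfl hr zero_le_two (by
    filter_upwards [diz_fin h.toAM0 hr (subset_univ (closedBall x r)),
      ae_restrict_mem measurableSet_Ioo] with s hs hs'
    have := ENat.toENNReal_le.2 (b5_two_le h h0 hx hs'.1 hs)
    simpa using this)
  have h2 : 0 ≤ lenc K x 0 := ENNReal.toReal_nonneg
  linarith

end Vale.Agent.P128
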