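import Vale.Agent.P128.Defs

/-! P128 B5/ConeLen: lengths of cones in balls. Helper names start with `cl_`. -/

namespace Vale.Agent.P128

open MeasureTheory Set Metric Filter Topology
open scoped ENNReal

theorem cl_rt_norm (N : ℕ) : ‖rt N‖ = 1 := by
  have e : rt N = Complex.exp (((2 * Real.pi / N : ℝ) : ℂ) * Complex.I) := by
    unfold rt
    congr 1
    push_cast
    ring
  rw [e, Complex.norm_exp_ofReal_mul_I]

theorem cl_norm (N : ℕ) {e : ℂ} (he : ‖e‖ = 1) (j : ℕ) : ‖e * rt N ^ j‖ = 1 := by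
  rw [norm_mul, norm_pow, cl_rt_norm, he, one_pow, mul_one]

theorem cl_rt_pow {N : ℕ} (hN : 0 < N) : rt N ^ N = 1 := by
  have : (N : ℂ) ≠ 0 := Nat.cast_ne_zero.2 hN.ne'
  rw [rt, ← Complex.exp_nat_mul, mul_div_cancel₀ _ this, Complex.exp_two_pi_mul_I]

theorem cl_mem {N : ℕ} (hN : 0 < N) (z e w : ℂ) :
    w ∈ cone N z e ↔ ∃ (j : Fin N) (t : ℝ), 0 ≤ t ∧ w = z + t * (e * rt N ^ (j : ℕ)) := by
  constructor
  · rintro ⟨j, t, ht, rfl⟩
    refine ⟨⟨j % N, Nat.mod_lt j hN⟩, t, ht, ?_⟩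
    rw [pow_eq_pow_mod j (cl_rt_pow hN)]
  · rintro ⟨j, t, ht, rfl⟩
    exact ⟨j, t, ht, rfl⟩

theorem cl_rt2 : rt 2 = -1 := by
  rw [rt, ← Complex.exp_pi_mul_I]
  congr 1
  push_cast
  ring

theorem cl_dot3 {e : ℂ} (he : ‖e‖ = 1) {i j : Fin 3} (hij : i ≠ j) :
    (e * rt 3 ^ (i : ℕ) * (starRingEnd ℂ) (e * rt 3 ^ (j : ℕ))).re = -1 / 2 := by
  have e0 : rt 3 = Complex.exp (((Real.pi - Real.pi / 3 : ℝ) : ℂ) * Complex.I) := by
    unfold rt
    congr 1
    push_cast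
    ring
  have h1 : (rt 3).re = -(1 / 2) := by
    rw [e0, Complex.exp_ofReal_mul_I_re, Real.cos_pi_sub, Real.cos_pi_div_three]
  have h2 : (rt 3).im * (rt 3).im = 3 / 4 := by
    rw [← sq, e0, Complex.exp_ofReal_mul_I_im, Real.sin_pi_sub, Real.sin_sq,
      Real.cos_pi_div_three]
    norm_num
  have h3 : e * (starRingEnd ℂ) e = 1 := by
    rw [Complex.mul_conj, Complex.normSq_eq_norm_sq, he]; simp
  have h4 : e * rt 3 ^ (i : ℕ) * (starRingEnd ℂ) (e * rt 3 ^ (j : ℕ)) =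
      rt 3 ^ (i : ℕ) * (starRingEnd ℂ) (rt 3 ^ (j : ℕ)) := by
    rw [map_mul]
    linear_combination (rt 3 ^ (i : ℕ) * (starRingEnd ℂ) (rt 3 ^ (j : ℕ))) * h3
  rw [h4]
  fin_cases i <;> fin_cases j <;> first
    | exact absurd rfl hij
    | (simp [sq, h1]; try linarith)

theorem cl_dot {N : ℕ} (hN : N = 1 ∨ N = 2 ∨ N = 3) {e : ℂ} (he : ‖e‖ = 1) {i j : Fin N}
    (hij : i ≠ j) : (e * rt N ^ (i : ℕ) * (starRingEnd ℂ) (e * rt N ^ (j : ℕ))).re ≤ 0 := by
  rcases hN with rfl | rfl | rfl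
  · exact absurd (Subsingleton.elim i j) hij
  · have h3 : (e * (starRingEnd ℂ) e).re = 1 := by
      rw [Complex.mul_conj, Complex.normSq_eq_norm_sq, he]; simp
    fin_cases i <;> fin_cases j <;> first
      | exact absurd rfl hij
      | (simp only [cl_rt2, pow_zero, pow_one, mul_one, map_neg, mul_neg, neg_mul, Complex.neg_re, h3]
         norm_num)
  · rw [cl_dot3 he hij]; norm_num

theorem cl_dist {v w : ℂ} (hv : ‖v‖ = 1) (hw : ‖w‖ = 1) (z : ℂ) (s d : ℝ) :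
    dist (z + s * v) (z + d * w) ^ 2 = s ^ 2 + d ^ 2 - 2 * s * d * (v * (starRingEnd ℂ) w).re := by
  have h1 := Complex.sq_norm v
  have h2 := Complex.sq_norm w
  rw [hv, Complex.normSq_apply] at h1
  rw [hw, Complex.normSq_apply] at h2
  rw [dist_add_left, dist_eq_norm, Complex.sq_norm, Complex.normSq_apply]
  simp only [Complex.sub_re, Complex.sub_im, Complex.re_ofReal_mul, Complex.im_ofReal_mul]
  simp only [Complex.mul_re, Complex.conj_re, Complex.conj_im]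
  linear_combination (-s ^ 2) * h1 + (-d ^ 2) * h2

theorem cl_dist1 {v : ℂ} (hv : ‖v‖ = 1) (z : ℂ) (s d : ℝ) :
    dist (z + s * v) (z + d * v) = |s - d| := by
  rw [dist_add_left, dist_eq_norm, ← sub_mul, norm_mul, hv, mul_one, ← Complex.ofReal_sub,
    Complex.norm_real, Real.norm_eq_abs]

theorem cl_dist0 {v : ℂ} (hv : ‖v‖ = 1) (z : ℂ) {s : ℝ} (hs : 0 ≤ s) : dist (z + s * v) z = s := by
  simpa [abs_of_nonneg hs] using cl_dist1 hv z s 0

theorem cl_iso {v : ℂ} (hv : ‖v‖ = 1) (z : ℂ) : Isometry fun s : ℝ => z + s * v :=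
  Isometry.of_dist_eq fun s d => by rw [cl_dist1 hv, Real.dist_eq]

theorem cl_img {v : ℂ} (hv : ‖v‖ = 1) (z : ℂ) (S : Set ℝ) :
    μH[1] ((fun s : ℝ => z + s * v) '' S) = volume S := by
  rw [(cl_iso hv z).hausdorffMeasure_image (Or.inl zero_le_one), hausdorffMeasure_real]

theorem cl_len {N : ℕ} (hN : N = 1 ∨ N = 2 ∨ N = 3) {z e y : ℂ} (he : ‖e‖ = 1) {t : ℝ}
    {a : Fin N → ℝ} (ha : ∀ j, 0 ≤ a j)
    (h1 : ∀ (j : Fin N) (s : ℝ), 0 < s → s < a j → z + s * (e * rt N ^ (j : ℕ)) ∈ ball y t)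
    (h2 : ∀ (j : Fin N) (s : ℝ), 0 ≤ s → z + s * (e * rt N ^ (j : ℕ)) ∈ closedBall y t → s ≤ a j) :
    len (cone N z e) y t = ∑ j, a j ∧ lenc (cone N z e) y t = ∑ j, a j := by
  have hN0 : 0 < N := by omega
  have lo : ENNReal.ofReal (∑ j, a j) ≤ μH[1] (cone N z e ∩ ball y t) := by
    have e1 : μH[1] (⋃ j : Fin N, (fun s : ℝ => z + s * (e * rt N ^ (j : ℕ))) '' Ioo 0 (a j)) =
        ENNReal.ofReal (∑ j, a j) := by
      rw [measure_iUnion, tsum_fintype, ENNReal.ofReal_sum_of_nonneg fun j _ => ha j]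
      · refine Finset.sum_congr rfl fun j _ => ?_
        rw [cl_img (cl_norm N he j), Real.volume_Ioo, sub_zero]
      · intro i j hij
        rw [Function.onFun, Set.disjoint_left]
        rintro _ ⟨s, hs, rfl⟩ ⟨d, hd, h⟩
        have k1 := cl_dist (cl_norm N he i) (cl_norm N he j) z s d
        have k2 := cl_dot hN he hij
        simp only at h
        rw [h, dist_self] at k1
        nlinarith [mul_nonneg (mul_pos hs.1 hd.1).le (neg_nonneg.2 k2), sq_nonneg d, hs.1]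
      · exact fun j => (cl_iso (cl_norm N he j) z).isClosedEmbedding.measurableEmbedding
          |>.measurableSet_image.2 measurableSet_Ioo
    rw [← e1]
    refine measure_mono (iUnion_subset fun j => ?_)
    rintro _ ⟨s, hs, rfl⟩
    exact ⟨⟨j, s, hs.1.le, rfl⟩, h1 j s hs.1 hs.2⟩
  have hi : μH[1] (cone N z e ∩ closedBall y t) ≤ ENNReal.ofReal (∑ j, a j) := by
    have e1 : cone N z e ∩ closedBall y t ⊆
        ⋃ j : Fin N, (fun s : ℝ => z + s * (e * rt N ^ (j : ℕ))) '' Icc 0 (a j) := by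
      rintro w ⟨hw, hw'⟩
      obtain ⟨j, s, hs, rfl⟩ := (cl_mem hN0 z e w).1 hw
      exact mem_iUnion.2 ⟨j, s, ⟨hs, h2 j s hs hw'⟩, rfl⟩
    refine (measure_mono e1).trans ((measure_iUnion_le _).trans ?_)
    rw [tsum_fintype, ENNReal.ofReal_sum_of_nonneg fun j _ => ha j]
    refine Finset.sum_le_sum fun j _ => ?_
    rw [cl_img (cl_norm N he j), Real.volume_Icc, sub_zero]
  have mid : μH[1] (cone N z e ∩ ball y t) ≤ μH[1] (cone N z e ∩ closedBall y t) :=
    measure_mono (inter_subset_inter_right _ ball_subset_closedBall)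
  have p0 : 0 ≤ ∑ j, a j := Finset.sum_nonneg fun j _ => ha j
  unfold len lenc
  rw [le_antisymm (mid.trans hi) lo, le_antisymm hi (lo.trans mid), ENNReal.toReal_ofReal p0]
  exact ⟨rfl, rfl⟩

/-- Near a point of an arm the cone lies on the line of the arm. -/
theorem cl_near {N : ℕ} (hN : N = 1 ∨ N = 2 ∨ N = 3) {z e : ℂ} (he : ‖e‖ = 1) (j : Fin N)
    {d t : ℝ} (hd : 0 ≤ d) (ht : t ≤ d) :
    cone N z e ∩ closedBall (z + d * (e * rt N ^ (j : ℕ))) t =
      (fun s : ℝ => z + d * (e * rt N ^ (j : ℕ)) + s * (e * rt N ^ (j : ℕ))) '' Icc (-t) t := by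
  have hv := cl_norm N he j
  ext w
  constructor
  · rintro ⟨hw, hw'⟩
    obtain ⟨i, s, hs, rfl⟩ := (cl_mem (by omega) z e w).1 hw
    rw [mem_closedBall] at hw'
    by_cases hij : i = j
    · subst hij
      rw [cl_dist1 hv] at hw'
      exact ⟨s - d, abs_le.1 hw', by push_cast; ring⟩
    · have k1 := cl_dist (cl_norm N he i) hv z s d
      have k2 := cl_dot hN he hij
      have k3 := pow_le_pow_left₀ dist_nonneg (hw'.trans ht) 2
      have k4 : s = 0 := by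
        nlinarith [mul_nonneg (mul_nonneg hs hd) (neg_nonneg.2 k2)]
      subst k4
      rw [Complex.ofReal_zero, zero_mul, add_zero, dist_comm, cl_dist0 hv z hd] at hw'
      exact ⟨-d, ⟨by linarith, by linarith⟩, by push_cast; ring⟩
  · rintro ⟨s, hs, rfl⟩
    refine ⟨⟨j, d + s, by linarith [hs.1], by push_cast; ring⟩, ?_⟩
    have := cl_dist1 hv (z + d * (e * rt N ^ (j : ℕ))) s 0
    rw [Complex.ofReal_zero, zero_mul, add_zero, sub_zero] at this
    rw [mem_closedBall, this]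
    exact abs_le.2 hs

theorem cl_line (z e w : ℂ) : w ∈ cone 2 z e ↔ ∃ s : ℝ, w = z + s * e := by
  constructor
  · rintro ⟨j, t, -, rfl⟩
    exact ⟨t * (-1) ^ j, by rw [cl_rt2]; push_cast; ring⟩
  · rintro ⟨s, rfl⟩
    rcases le_total 0 s with h | h
    · exact ⟨0, s, h, by simp⟩
    · exact ⟨1, -s, by linarith, by rw [cl_rt2]; push_cast; ring⟩

theorem cone_len' {N : ℕ} (hN : N = 1 ∨ N = 2 ∨ N = 3) {z e : ℂ} (he : ‖e‖ = 1) :
    IsClosed (cone N z e) ∧ IsPreconnected (cone N z e) ∧ z ∈ cone N z e ∧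
    (∀ t, 0 ≤ t → len (cone N z e) z t = N * t ∧ lenc (cone N z e) z t = N * t) ∧
    (∀ y ∈ cone N z e, ∀ t, 0 ≤ t → t ≤ dist y z → lenc (cone N z e) y t ≤ 2 * t) ∧
    (∀ y ∈ cone 2 z e, cone 2 y e = cone 2 z e) ∧
    (∀ y ∈ cone 3 z e, ∀ t, dist y z ≤ t →
      len (cone 3 z e) y t = t + √(4 * t ^ 2 - 3 * dist y z ^ 2) ∧
      lenc (cone 3 z e) y t = t + √(4 * t ^ 2 - 3 * dist y z ^ 2)) ∧
    (∀ y ∈ cone 3 z e, y ≠ z → ∃ e' : ℂ, ‖e'‖ = 1 ∧
      cone 3 z e ∩ closedBall y (dist y z) = cone 2 y e' ∩ closedBall y (dist y z)) := by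
  have hN0 : 0 < N := by omega
  have hU : cone N z e = ⋃ j : Fin N, (fun s : ℝ => z + s * (e * rt N ^ (j : ℕ))) '' Ici 0 := by
    ext w
    rw [cl_mem hN0, mem_iUnion]
    exact exists_congr fun j => exists_congr fun s => and_congr Iff.rfl eq_comm
  refine ⟨?_, ?_, ⟨0, 0, le_rfl, by simp⟩, fun t ht => ?_, fun y hy t ht hd => ?_,
    fun y hy => ?_, fun y hy t ht => ?_, fun y hy _ => ?_⟩
  · rw [hU]
    exact isClosed_iUnion_of_finite fun j =>
      (cl_iso (cl_norm N he j) z).isClosedEmbedding.isClosedMap _ isClosed_Ici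
  · rw [hU]
    exact isPreconnected_iUnion ⟨z, mem_iInter.2 fun j => ⟨0, self_mem_Ici, by simp⟩⟩ fun j =>
      isPreconnected_Ici.image _ (cl_iso (cl_norm N he j) z).continuous.continuousOn
  · have := cl_len hN he (z := z) (y := z) (t := t) (a := fun _ => t) (fun _ => ht)
      (fun j s h0 h1 => by rwa [mem_ball, cl_dist0 (cl_norm N he j) z h0.le])
      (fun j s h0 h1 => by rwa [mem_closedBall, cl_dist0 (cl_norm N he j) z h0] at h1)
    simpa using this
  · obtain ⟨j, d, hd0, rfl⟩ := (cl_mem hN0 z e y).1 hy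
    rw [cl_dist0 (cl_norm N he j) z hd0] at hd
    rw [lenc, cl_near hN he j hd0 hd, cl_img (cl_norm N he j), Real.volume_Icc,
      ENNReal.toReal_ofReal (by linarith)]
    linarith
  · obtain ⟨d, rfl⟩ := (cl_line z e y).1 hy
    ext w
    rw [cl_line, cl_line]
    exact ⟨fun ⟨s, h⟩ => ⟨d + s, by rw [h]; push_cast; ring⟩,
      fun ⟨s, h⟩ => ⟨s - d, by rw [h]; push_cast; ring⟩⟩
  · obtain ⟨j, d, hd0, rfl⟩ := (cl_mem (by norm_num) z e y).1 hy
    have hv := cl_norm 3 he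
    rw [cl_dist0 (hv j) z hd0] at ht ⊢
    have t0 : 0 ≤ t := hd0.trans ht
    have q0 : d ^ 2 ≤ 4 * t ^ 2 - 3 * d ^ 2 := by nlinarith
    have q1 : d ≤ √(4 * t ^ 2 - 3 * d ^ 2) := Real.le_sqrt_of_sq_le q0
    have q2 := Real.sq_sqrt ((sq_nonneg d).trans q0)
    set Q := √(4 * t ^ 2 - 3 * d ^ 2) with hQ
    have := cl_len (Or.inr (Or.inr rfl)) he (z := z) (y := z + d * (e * rt 3 ^ (j : ℕ))) (t := t)
      (a := fun i => (Q - d) / 2 + if i = j then d + t - (Q - d) / 2 else 0)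
      (fun i => by split_ifs <;> linarith) (fun i s h0 h1 => ?_) (fun i s h0 h1 => ?_)
    · have e1 : ∑ i : Fin 3, ((Q - d) / 2 + if i = j then d + t - (Q - d) / 2 else 0) = t + Q := by
        simp [Finset.sum_add_distrib]
        ring
      rwa [e1] at this
    · rw [mem_ball]
      split_ifs at h1 with hij
      · subst hij
        rw [cl_dist1 (hv i), abs_lt]
        constructor <;> linarith
      · have k1 := cl_dist (hv i) (hv j) z s d
        rw [cl_dot3 he hij] at k1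
        have k2 : (2 * s + d) ^ 2 < Q ^ 2 := by gcongr; linarith
        exact lt_of_pow_lt_pow_left₀ 2 t0 (by nlinarith)
    · rw [mem_closedBall] at h1
      split_ifs with hij
      · subst hij
        rw [cl_dist1 (hv i), abs_le] at h1
        linarith [h1.2]
      · have k1 := cl_dist (hv i) (hv j) z s d
        rw [cl_dot3 he hij] at k1
        have k3 := pow_le_pow_left₀ dist_nonneg h1 2
        have k2 : 2 * s + d ≤ Q := le_of_sq_le_sq (by nlinarith) (hd0.trans q1)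
        linarith
  · obtain ⟨j, d, hd0, rfl⟩ := (cl_mem (by norm_num) z e y).1 hy
    have hv := cl_norm 3 he j
    refine ⟨_, hv, ?_⟩
    rw [cl_dist0 hv z hd0, cl_near (Or.inr (Or.inr rfl)) he j hd0 le_rfl]
    ext w
    rw [mem_inter_iff, cl_line, mem_closedBall]
    have k1 : ∀ s : ℝ, dist (z + d * (e * rt 3 ^ (j : ℕ)) + s * (e * rt 3 ^ (j : ℕ)))
        (z + d * (e * rt 3 ^ (j : ℕ))) = |s| := fun s => by
      simpa using cl_dist1 hv (z + d * (e * rt 3 ^ (j : ℕ))) s 0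
    constructor
    · rintro ⟨s, hs, rfl⟩
      exact ⟨⟨s, rfl⟩, by rw [k1]; exact abs_le.2 hs⟩
    · rintro ⟨⟨s, rfl⟩, hs⟩
      rw [k1] at hs
      exact ⟨s, abs_le.1 hs, rfl⟩

end Vale.Agent.P128
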