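import Vale.Agent.P128.TA2.Main
import Vale.Agent.P128.B5.ConeLen

/-! P128 B5/ConeA: basic facts on cones. -/

namespace Vale.Agent.P128

open MeasureTheory Set Metric Filter Topology
open scoped ENNReal NNReal

theorem b5_rt3 : rt 3 = ⟨-1 / 2, √3 / 2⟩ := by
  have h : (2 * Real.pi * Complex.I / (3 : ℕ) : ℂ) = ((2 * Real.pi / 3 : ℝ) : ℂ) * Complex.I := by
    push_cast; ring
  have h2 : (2 * Real.pi / 3 : ℝ) = Real.pi - Real.pi / 3 := by ring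
  unfold rt
  rw [h]
  apply Complex.ext
  · rw [Complex.exp_ofReal_mul_I_re, h2, Real.cos_pi_sub, Real.cos_pi_div_three]; norm_num
  · rw [Complex.exp_ofReal_mul_I_im, h2, Real.sin_pi_sub, Real.sin_pi_div_three]

theorem b5_rt : rt 1 = 1 ∧ rt 2 = -1 ∧ rt 3 = ⟨-1 / 2, √3 / 2⟩ ∧ rt 3 ^ 2 = ⟨-1 / 2, -(√3 / 2)⟩ ∧
    (∀ N, ‖rt N‖ = 1) ∧ ∀ N, 0 < N → rt N ^ N = 1 := by
  refine ⟨by simpa using cl_rt_pow (N := 1) one_pos, cl_rt2, b5_rt3, ?_, cl_rt_norm,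
    fun N hN => cl_rt_pow hN⟩
  have h3 : √3 * √3 = (3 : ℝ) := Real.mul_self_sqrt (by norm_num)
  rw [b5_rt3, sq]
  apply Complex.ext
  · simp only [Complex.mul_re]; nlinarith
  · simp only [Complex.mul_im]; ring

theorem b5_mem_cone {N : ℕ} (hN : 0 < N) (z e w : ℂ) :
    w ∈ cone N z e ↔ ∃ j < N, ∃ t : ℝ, 0 ≤ t ∧ w = z + t * (e * rt N ^ j) := by
  rw [cl_mem hN]
  exact ⟨fun ⟨j, t, h⟩ => ⟨j, j.2, t, h⟩, fun ⟨j, hj, t, h⟩ => ⟨⟨j, hj⟩, t, h⟩⟩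

theorem b5_mem_two (z e w : ℂ) : w ∈ cone 2 z e ↔ ∃ t : ℝ, w = z + t * e := cl_line z e w

theorem b5_ray_len (z : ℂ) {e : ℂ} (he : ‖e‖ = 1) (S : Set ℝ) :
    μH[1] ((fun t : ℝ => z + t * e) '' S) = volume S := cl_img he z S

theorem b5_cone_rot {N : ℕ} (hN : 0 < N) (z e : ℂ) (j : ℕ) :
    cone N z (e * rt N ^ j) = cone N z e := by
  ext w
  constructor
  · rintro ⟨k, t, ht, rfl⟩
    exact ⟨j + k, t, ht, by rw [pow_add, mul_assoc e]⟩
  · rintro ⟨k, t, ht, rfl⟩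
    refine ⟨(N - 1) * j + k, t, ht, ?_⟩
    have h : rt N ^ j * rt N ^ ((N - 1) * j + k) = rt N ^ k := by
      rw [← pow_add, ← add_assoc]
      have : j + (N - 1) * j = N * j := by
        obtain ⟨m, rfl⟩ := Nat.exists_eq_succ_of_ne_zero hN.ne'
        simp [Nat.succ_mul, add_comm]
      rw [this, pow_add, pow_mul, cl_rt_pow hN, one_pow, one_mul]
    rw [mul_assoc e, h]

theorem b5_cone_of_mem {N : ℕ} (hN : 0 < N) {z e e' : ℂ} (he : ‖e‖ = 1) (he' : ‖e'‖ = 1) {t : ℝ}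
    (ht : 0 < t) (h : z + t * e' ∈ cone N z e) : cone N z e' = cone N z e := by
  obtain ⟨j, s, hs, h1⟩ := h
  have h2 : (t : ℂ) * e' = s * (e * rt N ^ j) := add_left_cancel h1
  have h3 : t = s := by
    have := congrArg norm h2
    rwa [norm_mul, norm_mul, he', cl_norm N he j, mul_one, mul_one, Complex.norm_real,
      Complex.norm_real, Real.norm_of_nonneg ht.le, Real.norm_of_nonneg hs] at this
  subst h3
  have h4 : e' = e * rt N ^ j := mul_left_cancel₀ (by exact_mod_cast ht.ne') h2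
  rw [h4, b5_cone_rot hN]

theorem b5_cone_of_ball {N : ℕ} (hN : 0 < N) {z e e' : ℂ} (he : ‖e‖ = 1) (he' : ‖e'‖ = 1) {r : ℝ}
    (hr : 0 < r) (h : cone N z e' ∩ ball z r ⊆ cone N z e) : cone N z e' = cone N z e := by
  refine b5_cone_of_mem hN he he' (half_pos hr) (h ⟨⟨0, r / 2, (half_pos hr).le, by simp⟩, ?_⟩)
  rw [mem_ball, cl_dist0 he' z (half_pos hr).le]
  linarith

theorem b5_cone_top {N : ℕ} (hN : 0 < N) (z : ℂ) {e : ℂ} (he : ‖e‖ = 1) :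
    IsClosed (cone N z e) ∧ IsPreconnected (cone N z e) ∧ z ∈ cone N z e := by
  have hc : cone N z e = ⋃ j : Fin N, (fun t : ℝ => z + t * (e * rt N ^ (j : ℕ))) '' Ici 0 := by
    ext w
    rw [cl_mem hN]
    simp only [mem_iUnion, mem_image, mem_Ici]
    exact ⟨fun ⟨j, t, ht, h⟩ => ⟨j, t, ht, h.symm⟩, fun ⟨j, t, ht, h⟩ => ⟨j, t, ht, h.symm⟩⟩
  refine ⟨?_, ?_, ⟨0, 0, le_rfl, by simp⟩⟩
  · rw [hc]
    exact isClosed_iUnion_of_finite fun j =>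
      (cl_iso (cl_norm N he j) z).isClosedEmbedding.isClosedMap _ isClosed_Ici
  · rw [hc]
    refine isPreconnected_iUnion ⟨z, mem_iInter.2 fun j => ⟨0, self_mem_Ici, by simp⟩⟩ fun j => ?_
    exact isPreconnected_Ici.image _ (cl_iso (cl_norm N he j) z).continuous.continuousOn

end Vale.Agent.P128
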