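import Vale.Agent.P128.TA2.Main

/-! P128 B5/Swap (TASK): replacing `K` inside a disc along a retraction.

Plan. `b5_lc_of_zero`: on a small ball inside the open set `Kᶜ` the function is differentiable
with zero derivative (`IsOpen.is_const_of_fderiv_eq_zero` or `Convex.is_const_of_fderivWithin_eq_zero`).
`b5_lc_swap`: for `z` in the open ball off `L₀`, `π` is continuous at `z` and `κ` is locally
constant at `π z`; for `z` on the sphere off `L₀` (hence off `K`), `π z = z` and `π` is continuous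
within `closedBall y s \ L₀`, so both branches equal `κ z` near `z`; outside the closed ball
the function is `κ` near `z`.
`b5_swap`: competitor `L = (K \ ball y s) ∪ L₀`, `w = fun z => if z ∈ closedBall y s then u (π z) else u z`,
locally constant off `L`, hence locally Lipschitz with zero derivative; `L ∩ closedBall y s = L₀`. -/

namespace Vale.Agent.P128

open MeasureTheory Set Metric Filter Topology
open scoped ENNReal NNReal

variable {c : ℝ} {u : ℂ → ℝ} {K : Set ℂ}

theorem b5_lc_of_zero (h : GM c u K) (h0 : ∀ z ∉ K, fderiv ℝ u z = 0) : LC Kᶜ u := by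
  intro z hz
  obtain ⟨ε, hε, hb⟩ := Metric.isOpen_iff.1 h.closed.isOpen_compl z hz
  filter_upwards [ball_mem_nhds z hε] with w hw
  exact isOpen_ball.is_const_of_fderiv_eq_zero (𝕜 := ℝ) (convex_ball z ε).isPreconnected
    (fun x hx => (h.diff x ⟨mem_univ _, hb hx⟩).differentiableWithinAt)
    (fun x hx => h0 x (hb hx)) hw (mem_ball_self hε)

open Classical in
theorem b5_lc_swap (hK : IsClosed K) {y : ℂ} {s : ℝ} {L₀ : Set ℂ} (hL : IsClosed L₀) {π : ℂ → ℂ}
    (hπ : ContinuousOn π (closedBall y s \ L₀)) (hπK : ∀ z ∈ closedBall y s \ L₀, π z ∉ K)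
    (hid : ∀ z ∈ sphere y s \ L₀, π z = z) (hKL : K ∩ sphere y s ⊆ L₀) {κ : ℂ → ℝ}
    (hκ : LC Kᶜ κ) :
    LC ((K \ ball y s) ∪ L₀)ᶜ (fun z => if z ∈ closedBall y s then κ (π z) else κ z) := by
  intro z hz
  have hz1 : z ∉ K \ ball y s := fun h => hz (Or.inl h)
  have hz2 : z ∉ L₀ := fun h => hz (Or.inr h)
  by_cases hc : z ∈ closedBall y s
  · have A := eventually_nhdsWithin_iff.1
      ((hπ z ⟨hc, hz2⟩).tendsto.eventually (hκ (π z) (hπK z ⟨hc, hz2⟩)))
    have B : ∀ᶠ w in 𝓝 z, w ∉ closedBall y s → κ w = κ (π z) := by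
      by_cases hb : z ∈ ball y s
      · exact (isOpen_ball.eventually_mem hb).mono fun w hw hn =>
          absurd (ball_subset_closedBall hw) hn
      · have hs : z ∈ sphere y s := le_antisymm hc (not_lt.1 hb)
        rw [hid z ⟨hs, hz2⟩]
        exact (hκ z fun hK' => hz1 ⟨hK', hb⟩).mono fun w hw _ => hw
    filter_upwards [A, B, hL.isOpen_compl.mem_nhds hz2] with w h1 h2 h3
    rw [if_pos hc]
    split_ifs with hw
    · exact h1 ⟨hw, h3⟩
    · exact h2 hw
  · have hK' : z ∉ K := fun hK' => hz1 ⟨hK', fun hb => hc (ball_subset_closedBall hb)⟩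
    filter_upwards [hκ z hK', isClosed_closedBall.isOpen_compl.mem_nhds hc] with w h1 h2
    rw [if_neg hc, if_neg h2, h1]

theorem b5_swap (h : GM c u K) (h0 : ∀ z ∉ K, fderiv ℝ u z = 0) {y : ℂ} {s : ℝ} (hs : 0 < s)
    {L₀ : Set ℂ} (hL : IsClosed L₀) (hLs : L₀ ⊆ closedBall y s) {π : ℂ → ℂ}
    (hπ : ContinuousOn π (closedBall y s \ L₀)) (hπK : ∀ z ∈ closedBall y s \ L₀, π z ∉ K)
    (hid : ∀ z ∈ sphere y s \ L₀, π z = z) (hKL : K ∩ sphere y s ⊆ L₀) :
    μH[1] (K ∩ closedBall y s) ≤ μH[1] L₀ := by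
  classical
  have hK := h.closed
  have hcl : IsClosed ((K \ ball y s) ∪ L₀) := (hK.sdiff isOpen_ball).union hL
  have hw := b5_lc_swap hK hL hπ hπK hid hKL (b5_lc_of_zero h h0)
  have hC : Comp univ True u K y s (fun z => if z ∈ closedBall y s then u (π z) else u z)
      ((K \ ball y s) ∪ L₀) := by
    refine ⟨hcl, ?_, fun z _ hz => if_neg hz, ?_, fun _ κ hκ => ?_⟩
    · ext z
      refine ⟨fun hz => ⟨?_, hz.2⟩, fun hz =>
        ⟨Or.inl ⟨hz.1, fun hb => hz.2 (ball_subset_closedBall hb)⟩, hz.2⟩⟩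
      exact hz.1.elim (fun h => h.1) fun h => absurd (hLs h) hz.2
    · exact (locLip_iff (isOpen_univ.sdiff hcl)).2 fun z hz => (lipAt_const _ z).congr (hw z hz.2)
    · have h1 := b5_lc_swap hK hL hπ hπK hid hKL (κ := κ) fun z hz => hκ z ⟨mem_univ _, hz⟩
      exact ⟨_, fun z hz => h1 z hz.2, fun z _ hz => if_neg hz⟩
  have h1 := h.min y s _ _ hs (subset_univ _) hC
  have h2 : Dir (fun z => if z ∈ closedBall y s then u (π z) else u z)
      (closedBall y s \ ((K \ ball y s) ∪ L₀)) = 0 := by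
    refine setLIntegral_eq_zero (measurableSet_closedBall.diff hcl.measurableSet) fun z hz => ?_
    have e := Filter.EventuallyEq.fderiv_eq (𝕜 := ℝ) (hw z hz.2)
    simp only [e, fderiv_fun_const, Pi.zero_apply]
    rw [← ofReal_norm, norm_zero, ENNReal.ofReal_zero, zero_pow two_ne_zero]
  simp only [En, h2, zero_mul, ENNReal.ofReal_zero, add_zero, zero_add] at h1
  refine (le_add_self.trans h1).trans (measure_mono fun z hz => ?_)
  exact hz.1.elim (fun h => hKL ⟨h.1, le_antisymm hz.2 (not_lt.1 h.2)⟩) id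

end Vale.Agent.P128
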