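import Vale.Agent.P128.B5.Move
import Vale.Agent.P128.TA1.Main

/-! P128 B5/YGeo (TASK): the Y shaped competitor in the unit disc.

Plan. `b5_two_close`: take four distinct points of `P` (`Finset.exists_subset_card_eq`,
`Finset.card_eq_succ`...). If all pairs had negative inner product, multiply by `conj p₀`: the three
other points have negative real part, and two of them have imaginary parts of the same sign,
so their inner product is positive. Then `w = q * conj p` has norm one, `re ≥ 0`, `w ≠ 1`, hence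
`im w ≠ 0`; swap `p, q` if `im w > 0`.
`b5_sector`: for one unit vector `v ≠ 1` every `ε ≤ min 1 (im v / 2)` works if `im v > 0`, every `ε`
if `im v ≤ 0`; `Finset.induction_on` or `Filter.eventually_all_finset` in `𝓝[>] 0`.
`b5_ylen`: `‖p + q‖^2 = 2 + 2 c`, `‖4 p - q‖^2 = 17 - 8 c` with `c = (q * conj p).re ∈ [0,1]`;
`√(2 + 2c) ≤ 1.415 + 0.71 c`, `√(17 - 8c) ≤ 4.124 - 0.9 c`.
`b5_ygeo`: `O = (p + q)/5`, `R = ⋃ v ∈ P \ {p, q}, segment 0 v`, `M₀ = segment 0 O ∪ R`,
`L₀ = (M₀ ∪ segment O q) ∪ segment O p`. `φ₁ = rotation ⟨conj p, _⟩` and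
`φ₂ = (rotation ⟨conj q, _⟩).trans Complex.conjLIE` both send `O` to `(1 + w)/5`, and `φ₁ q = φ₂ p = w`.
`G₁` from `b5_move φ₁` with `M = M₀ ∪ segment O q`, `G₂` from `b5_move φ₂` with `M = M₀ ∪ segment 0 p`
(points of the segments between `0, O, q` resp. `p` have image with `im ≤ 0`; points of `R` are
handled by `b5_sector` applied to the image of `P \ {p, q}`). `π z = ‖z'‖⁻¹ • z'` with
`z' = G₂ (G₁ z)`, which avoids all radii, in particular `0`. Length: `len_segment`,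
`measure_union_le`, `measure_biUnion_finset_le`. -/

namespace Vale.Agent.P128

open MeasureTheory Set Metric Filter Topology
open scoped ENNReal NNReal

theorem b5_two_close {P : Finset ℂ} (hP : ∀ p ∈ P, ‖p‖ = 1) (h4 : 4 ≤ P.card) :
    ∃ p ∈ P, ∃ q ∈ P, p ≠ q ∧ 0 ≤ (q * (starRingEnd ℂ) p).re ∧ (q * (starRingEnd ℂ) p).im < 0 := by
  have hsq : ∀ p ∈ P, p.re * p.re + p.im * p.im = 1 := fun p hp => by
    rw [← Complex.normSq_apply, ← Complex.sq_norm, hP p hp, one_pow]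
  obtain ⟨p, hp, q, hq, hpq, hre⟩ : ∃ p ∈ P, ∃ q ∈ P, p ≠ q ∧ 0 ≤ (q * (starRingEnd ℂ) p).re := by
    by_contra hcon
    push Not at hcon
    obtain ⟨T, hT, hc⟩ := Finset.exists_subset_card_eq h4
    obtain ⟨a, T', haT, rfl, hc'⟩ := Finset.card_eq_succ.1 hc
    obtain ⟨b, c, d, hbc, hbd, hcd, rfl⟩ := Finset.card_eq_three.1 hc'
    have ha : a ∈ P := hT (by simp)
    have hb : b ∈ P := hT (by simp)
    have hc : c ∈ P := hT (by simp)
    have hd : d ∈ P := hT (by simp)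
    simp only [Finset.mem_insert, Finset.mem_singleton, not_or] at haT
    have key : ∀ v ∈ P, ∀ w ∈ P, a ≠ v → a ≠ w → v ≠ w →
        (v * (starRingEnd ℂ) a).im * (w * (starRingEnd ℂ) a).im < 0 := by
      intro v hv w hw h1 h2 h3
      have k1 := hcon a ha v hv h1
      have k2 := hcon a ha w hw h2
      have k3 := hcon v hv w hw h3
      have k4 := mul_pos_of_neg_of_neg k1 k2
      have k5 := hsq a ha
      simp only [Complex.mul_re, Complex.mul_im, Complex.conj_re, Complex.conj_im] at k3 k4 ⊢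
      have k6 : (v.re * a.re - v.im * -a.im) * (w.re * a.re - w.im * -a.im) +
          (v.re * -a.im + v.im * a.re) * (w.re * -a.im + w.im * a.re) =
          w.re * v.re - w.im * -v.im := by
        linear_combination (w.re * v.re + w.im * v.im) * k5
      linarith
    have k1 := key b hb c hc haT.1 haT.2.1 hbc
    have k2 := key b hb d hd haT.1 haT.2.2 hbd
    have k3 := key c hc d hd haT.2.1 haT.2.2 hcd
    nlinarith [mul_pos_of_neg_of_neg k1 k2, sq_nonneg (b * (starRingEnd ℂ) a).im]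
  have k1 := hsq p hp
  have k2 := hsq q hq
  rcases lt_trichotomy (q * (starRingEnd ℂ) p).im 0 with h | h | h
  · exact ⟨p, hp, q, hq, hpq, hre, h⟩
  · exfalso
    simp only [Complex.mul_re, Complex.mul_im, Complex.conj_re, Complex.conj_im] at hre h
    have k3 : (q.re * p.re - q.im * -p.im) ^ 2 = 1 := by
      linear_combination (q.re * q.re + q.im * q.im) * k1 + k2 -
        (q.re * -p.im + q.im * p.re) * h
    have k4 : q.re * p.re - q.im * -p.im = 1 := by nlinarith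
    have k5 : (p.re - q.re) ^ 2 + (p.im - q.im) ^ 2 = 0 := by linear_combination k1 + k2 - 2 * k4
    refine hpq (Complex.ext ?_ ?_)
    · nlinarith [sq_nonneg (p.re - q.re), sq_nonneg (p.im - q.im)]
    · nlinarith [sq_nonneg (p.re - q.re), sq_nonneg (p.im - q.im)]
  · refine ⟨q, hq, p, hp, hpq.symm, ?_, ?_⟩
    · simp only [Complex.mul_re, Complex.conj_re, Complex.conj_im] at hre ⊢
      linarith
    · simp only [Complex.mul_im, Complex.conj_re, Complex.conj_im] at h ⊢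
      linarith

theorem b5_sector {Q : Finset ℂ} (hQ : ∀ v ∈ Q, ‖v‖ = 1 ∧ v ≠ 1) :
    ∃ ε : ℝ, 0 < ε ∧ ε ≤ 1 ∧ ∀ v ∈ Q, ∀ z ∈ segment ℝ 0 v, ¬ (0 < z.im ∧ z.im ≤ ε * z.re) := by
  have h1 : ∀ᶠ ε : ℝ in 𝓝[>] 0, ∀ v ∈ Q, 0 < v.im → ε < v.im :=
    (eventually_all_finset _).2 fun v _ => by
      by_cases hv : 0 < v.im
      · filter_upwards [nhdsWithin_le_nhds (gt_mem_nhds hv)] with ε hε _ using hε
      · exact Eventually.of_forall fun _ h => absurd h hv
  obtain ⟨ε, h2, h3, h4⟩ := (h1.and (Ioc_mem_nhdsGT zero_lt_one)).exists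
  refine ⟨ε, h3, h4, ?_⟩
  rintro v hv _ ⟨a, b, -, hb, -, rfl⟩ ⟨k1, k2⟩
  simp only [smul_zero, zero_add, Complex.smul_re, Complex.smul_im, smul_eq_mul] at k1 k2
  have k4 : 0 < b := hb.lt_of_ne fun h => by simp [← h] at k1
  have k3 : 0 < v.im := (mul_pos_iff_of_pos_left k4).1 k1
  have k5 := h2 v hv k3
  have k6 : v.re ≤ 1 := (Complex.re_le_norm v).trans (hQ v hv).1.le
  have k7 : ε * (b * v.re) ≤ ε * (b * 1) := by gcongr
  nlinarith

theorem b5_ylen {p q : ℂ} (hp : ‖p‖ = 1) (hq : ‖q‖ = 1) (h : 0 ≤ (q * (starRingEnd ℂ) p).re) :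
    dist 0 ((p + q) / 5) + dist ((p + q) / 5) q + dist ((p + q) / 5) p ≤ 1.95 := by
  have k1 : p.re * p.re + p.im * p.im = 1 := by
    rw [← Complex.normSq_apply, ← Complex.sq_norm, hp, one_pow]
  have k2 : q.re * q.re + q.im * q.im = 1 := by
    rw [← Complex.normSq_apply, ← Complex.sq_norm, hq, one_pow]
  simp only [Complex.mul_re, Complex.conj_re, Complex.conj_im] at h
  set c := q.re * p.re - q.im * -p.im with hc
  have c1 : c ≤ 1 := by nlinarith [sq_nonneg (p.re - q.re), sq_nonneg (p.im - q.im)]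
  have n1 : ‖p + q‖ ≤ 1.415 + 0.71 * c := by
    refine le_of_sq_le_sq ?_ (by positivity)
    have : ‖p + q‖ ^ 2 = 2 + 2 * c := by
      rw [Complex.sq_norm, Complex.normSq_apply, hc]
      simp only [Complex.add_re, Complex.add_im]
      linear_combination k1 + k2
    rw [this]
    nlinarith
  have n2 : ∀ v w : ℂ, v.re * v.re + v.im * v.im = 1 → w.re * w.re + w.im * w.im = 1 →
      v.re * w.re + v.im * w.im = c → ‖v - 4 * w‖ ≤ 4.124 - 0.9 * c := by
    intro v w h1 h2 h3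
    refine le_of_sq_le_sq ?_ (by linarith)
    have : ‖v - 4 * w‖ ^ 2 = 17 - 8 * c := by
      rw [Complex.sq_norm, Complex.normSq_apply]
      simp only [Complex.sub_re, Complex.sub_im, Complex.mul_re, Complex.mul_im, Complex.re_ofNat,
        Complex.im_ofNat]
      linear_combination h1 + 16 * h2 - 8 * h3
    rw [this]
    nlinarith
  have n3 := n2 p q k1 k2 (by rw [hc]; ring)
  have n4 := n2 q p k2 k1 (by rw [hc]; ring)
  have n5 : ‖(5 : ℂ)‖ = 5 := by simp
  rw [dist_zero_left, dist_eq_norm, dist_eq_norm, show (p + q) / 5 - q = (p - 4 * q) / 5 by ring,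
    show (p + q) / 5 - p = (q - 4 * p) / 5 by ring, norm_div, norm_div, norm_div, n5]
  linarith

theorem b5_ygeo {P : Finset ℂ} (hP : ∀ p ∈ P, ‖p‖ = 1) (h4 : 4 ≤ P.card) :
    ∃ (L₀ : Set ℂ) (π : ℂ → ℂ), IsCompact L₀ ∧ L₀ ⊆ closedBall 0 1 ∧ (P : Set ℂ) ⊆ L₀ ∧
      ContinuousOn π (closedBall 0 1 \ L₀) ∧
      (∀ z ∈ closedBall (0 : ℂ) 1 \ L₀, ‖π z‖ = 1 ∧ π z ∉ P) ∧
      (∀ z ∈ sphere (0 : ℂ) 1 \ L₀, π z = z) ∧
      μH[1] L₀ ≤ ENNReal.ofReal (P.card - 1 / 20) := by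
  classical
  obtain ⟨p, hp, q, hq, hpq, hre, him⟩ := b5_two_close hP h4
  have p1 := hP p hp
  have q1 := hP q hq
  have uc : ∀ v : ℂ, ‖v‖ = 1 → v * (starRingEnd ℂ) v = 1 := fun v hv => by
    rw [Complex.mul_conj, Complex.normSq_eq_norm_sq, hv]; simp
  set O := (p + q) / 5 with hO
  set Q := (P.erase p).erase q with hQ
  have hQm : ∀ v, v ∈ Q ↔ v ≠ q ∧ v ≠ p ∧ v ∈ P := fun v => by simp [hQ]
  set R : Set ℂ := ⋃ v ∈ Q, segment ℝ 0 v with hR
  have hO1 : ‖O‖ < 1 := by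
    have := norm_add_le p q
    rw [hO, norm_div, show ‖(5 : ℂ)‖ = 5 by simp]
    linarith
  -- one move
  have move : ∀ (φ : ℂ ≃ₗᵢ[ℝ] ℂ) (a b c : ℂ), φ a = 1 → a = p ∨ a = q →
      φ O = (1 + q * (starRingEnd ℂ) p) / 5 → (φ b).im ≤ 0 → (φ c).im ≤ 0 →
      ∃ G : ℂ → ℂ,
        ContinuousOn G (closedBall 0 1 \ (((segment ℝ 0 O ∪ R) ∪ segment ℝ b c) ∪ segment ℝ O a)) ∧
        MapsTo G (closedBall 0 1 \ (((segment ℝ 0 O ∪ R) ∪ segment ℝ b c) ∪ segment ℝ O a))
          (closedBall 0 1 \ (((segment ℝ 0 O ∪ R) ∪ segment ℝ b c) ∪ segment ℝ 0 a)) ∧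
        ∀ z ∈ sphere (0 : ℂ) 1, G z = z := by
    intro φ a b c ha hapq hφ hb hc
    have i1 : (φ O).im < 0 := by
      rw [hφ, Complex.div_ofNat_im, Complex.add_im, Complex.one_im]; linarith
    have i2 : 0 < (φ O).re := by
      rw [hφ, Complex.div_ofNat_re, Complex.add_re, Complex.one_re]; linarith
    obtain ⟨ε, e0, e1, hε⟩ := b5_sector (Q := Q.image φ) fun v hv => by
      obtain ⟨w, hw, rfl⟩ := Finset.mem_image.1 hv
      obtain ⟨w1, w2, w3⟩ := (hQm w).1 hw
      refine ⟨by rw [φ.norm_map, hP w w3], fun h => ?_⟩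
      have := φ.injective (h.trans ha.symm)
      rcases hapq with rfl | rfl
      exacts [w2 this, w1 this]
    have seg : ∀ x y : ℂ, (φ x).im ≤ 0 → (φ y).im ≤ 0 → ∀ z ∈ segment ℝ x y, ¬ 0 < (φ z).im := by
      rintro x y hx hy _ ⟨s, t, hs, ht, -, rfl⟩
      rw [map_add, map_smul, map_smul, Complex.add_im, Complex.smul_im, Complex.smul_im, not_lt]
      exact add_nonpos (mul_nonpos_of_nonneg_of_nonpos hs hx) (mul_nonpos_of_nonneg_of_nonpos ht hy)
    refine b5_move φ ha i2 i1 hO1 (subset_union_left.trans subset_union_left) e0 e1 ?_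
    rintro z ((hz | hz) | hz)
    · exact fun h => seg 0 O (by simp) i1.le z hz h.1
    · obtain ⟨v, hv, s, t, hs, ht, hst, rfl⟩ := mem_iUnion₂.1 hz
      exact hε (φ v) (Finset.mem_image_of_mem _ hv) _
        ⟨s, t, hs, ht, hst, by rw [map_add, map_smul, map_smul, map_zero]⟩
    · exact fun h => seg b c hb hc z hz h.1
  let cp : Circle := ⟨(starRingEnd ℂ) p, by simp [Submonoid.unitSphere, p1]⟩
  let cq : Circle := ⟨(starRingEnd ℂ) q, by simp [Submonoid.unitSphere, q1]⟩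
  have f1 : ∀ z, rotation cp z = (starRingEnd ℂ) p * z := fun z => rotation_apply cp z
  have f2 : ∀ z, ((rotation cq).trans Complex.conjLIE) z = q * (starRingEnd ℂ) z := fun z => by
    rw [LinearIsometryEquiv.trans_apply, rotation_apply, Complex.conjLIE_apply, map_mul]
    simp [cq]
  have o1 : rotation cp O = (1 + q * (starRingEnd ℂ) p) / 5 := by
    rw [f1, hO]; linear_combination (1 / 5 : ℂ) * uc p p1
  have o2 : ((rotation cq).trans Complex.conjLIE) O = (1 + q * (starRingEnd ℂ) p) / 5 := by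
    rw [f2, hO, map_div₀, map_add, show (starRingEnd ℂ) 5 = 5 from Complex.conj_ofNat 5]
    linear_combination (1 / 5 : ℂ) * uc q q1
  obtain ⟨G₁, c1, m1, s1⟩ := move (rotation cp) p O q (by rw [f1, mul_comm, uc p p1]) (Or.inl rfl)
    o1 (by rw [o1, Complex.div_ofNat_im, Complex.add_im, Complex.one_im]; linarith)
    (by rw [f1, mul_comm]; exact him.le)
  obtain ⟨G₂, c2, m2, s2⟩ := move ((rotation cq).trans Complex.conjLIE) q 0 p
    (by rw [f2, uc q q1]) (Or.inr rfl) o2 (by simp) (by rw [f2]; exact him.le)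
  set L₀ := ((segment ℝ 0 O ∪ R) ∪ segment ℝ O q) ∪ segment ℝ O p with hL
  have m1' : MapsTo G₁ (closedBall 0 1 \ L₀)
      (closedBall 0 1 \ (((segment ℝ 0 O ∪ R) ∪ segment ℝ 0 p) ∪ segment ℝ O q)) := by
    rw [union_right_comm]
    exact m1
  have av : ∀ z ∈ closedBall (0 : ℂ) 1 \ L₀, ‖G₂ (G₁ z)‖ ≤ 1 ∧
      ∀ v ∈ P, G₂ (G₁ z) ∉ segment ℝ 0 v := fun z hz => by
    obtain ⟨k1, k2⟩ := m2 (m1' hz)
    refine ⟨mem_closedBall_zero_iff.1 k1, fun v hv h => k2 ?_⟩
    by_cases h1 : v = q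
    · exact Or.inr (h1 ▸ h)
    · by_cases h2 : v = p
      · exact Or.inl (Or.inr (h2 ▸ h))
      · exact Or.inl (Or.inl (Or.inr (mem_iUnion₂.2 ⟨v, (hQm v).2 ⟨h1, h2, hv⟩, h⟩)))
  have nz : ∀ z ∈ closedBall (0 : ℂ) 1 \ L₀, 0 < ‖G₂ (G₁ z)‖ := fun z hz =>
    norm_pos_iff.2 fun h => (av z hz).2 p hp (h ▸ left_mem_segment _ _ _)
  have cs : ∀ x y : ℂ, IsCompact (segment ℝ x y) := fun x y => by
    rw [segment_eq_image]
    exact isCompact_Icc.image (by fun_prop)
  have sb : ∀ x y : ℂ, ‖x‖ ≤ 1 → ‖y‖ ≤ 1 → segment ℝ x y ⊆ closedBall 0 1 := fun x y hx hy =>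
    (convex_closedBall 0 1).segment_subset (mem_closedBall_zero_iff.2 hx)
      (mem_closedBall_zero_iff.2 hy)
  have cc : ContinuousOn (fun z => G₂ (G₁ z)) (closedBall 0 1 \ L₀) := c2.comp c1 m1'
  refine ⟨L₀, fun z => ‖G₂ (G₁ z)‖⁻¹ • G₂ (G₁ z), ?_, ?_, fun v hv => ?_, ?_, fun z hz => ⟨?_, ?_⟩,
    fun z hz => ?_, ?_⟩
  · exact (((cs _ _).union (Q.isCompact_biUnion fun v _ => cs _ _)).union (cs _ _)).union (cs _ _)
  · refine union_subset (union_subset (union_subset (sb _ _ (by simp) hO1.le) ?_)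
      (sb _ _ hO1.le q1.le)) (sb _ _ hO1.le p1.le)
    exact iUnion₂_subset fun v hv => sb _ _ (by simp) (hP v ((hQm v).1 hv).2.2).le
  · by_cases h1 : v = q
    · exact Or.inl (Or.inr (h1 ▸ right_mem_segment _ _ _))
    · by_cases h2 : v = p
      · exact Or.inr (h2 ▸ right_mem_segment _ _ _)
      · exact Or.inl (Or.inl (Or.inr (mem_iUnion₂.2
          ⟨v, (hQm v).2 ⟨h1, h2, hv⟩, right_mem_segment _ _ _⟩)))
  · exact (cc.norm.inv₀ fun z hz => (nz z hz).ne').smul cc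
  · rw [norm_smul, norm_inv, norm_norm, inv_mul_cancel₀ (nz z hz).ne']
  · intro h
    refine (av z hz).2 _ h ⟨1 - ‖G₂ (G₁ z)‖, ‖G₂ (G₁ z)‖, by linarith [(av z hz).1],
      norm_nonneg _, by ring, ?_⟩
    rw [smul_zero, zero_add, smul_smul, mul_inv_cancel₀ (nz z hz).ne', one_smul]
  · simp only
    rw [s1 z hz.1, s2 z hz.1, mem_sphere_zero_iff_norm.1 hz.1, inv_one, one_smul]
  · have l1 : μH[1] R ≤ ENNReal.ofReal (Q.card) := by
      refine (measure_biUnion_finset_le _ _).trans (le_of_eq ?_)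
      rw [Finset.sum_congr rfl fun v hv => by
        rw [len_segment, dist_zero_left, hP v ((hQm v).1 hv).2.2, ENNReal.ofReal_one]]
      simp
    have l2 : (Q.card : ℝ) = P.card - 2 := by
      have k1 := Finset.card_erase_add_one hp
      have k2 := Finset.card_erase_add_one (Finset.mem_erase.2 ⟨hpq.symm, hq⟩)
      have k3 : Q.card + 2 = P.card := by rw [hQ]; omega
      rw [← k3]; push_cast; ring
    have l3 := b5_ylen p1 q1 hre
    refine (measure_union_le _ _).trans ((add_le_add ((measure_union_le _ _).trans (add_le_add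
      ((measure_union_le _ _).trans (add_le_add le_rfl l1)) le_rfl)) le_rfl).trans ?_)
    rw [len_segment, len_segment, len_segment, ← ENNReal.ofReal_add dist_nonneg (by positivity),
      ← ENNReal.ofReal_add (by positivity) dist_nonneg,
      ← ENNReal.ofReal_add (by positivity) dist_nonneg]
    exact ENNReal.ofReal_le_ofReal (by linarith)

end Vale.Agent.P128
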