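import Vale.Agent.P128.B5.Ann
import Vale.Agent.P128.B5.Swap
import Vale.Agent.P128.B5.YGeo

/-! P128 B5/UB3 (TASK): the length ratio is at most three.

Plan for `b5_ycomp`. Let `T z = y + s * z` (Lipschitz with constant `s`, a homeomorphism with inverse
`w ↦ (w - y) / s`), `P₀ = P.image (fun w => (w - y) / s)`. Take `L₀, π` from `b5_ygeo` and apply
`b5_swap` to `T '' L₀` and `fun w => T (π ((w - y) / s))`; `LipschitzWith.hausdorffMeasure_image_le`.
Plan for `b5_UB3`. Let `Θ = sSup {lenc K y s / s | s > 0} ≤ 8` (`AM0.upper_real`). Suppose `Θ > 3`;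
put `σ = min (1/400) ((Θ - 3)/20)`, `η = σ / 100`; take `R > 0` with `lenc K y R > (Θ - η) R`
(`exists_lt_of_lt_csSup`). For `s ∈ Ioo R ((1 + σ) R)` with finite section `P` (`diz_fin`):
`lenc s / s ≥ (Θ - η)/(1 + σ) > 3`, so `card P ≥ 4` by `b5_T6_center`, and `b5_ycomp` gives
`card P ≥ m = (Θ - η)/(1 + σ) + 1/20`. `b5_ann` gives
`(Θ - η) R + m σ R ≤ Θ (1 + σ) R`, i.e. `m ≤ Θ + 1/100`, while
`m ≥ Θ - 8 σ - η + 1/20 > Θ + 1/100`. -/

namespace Vale.Agent.P128

open MeasureTheory Set Metric Filter Topology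
open scoped ENNReal NNReal

variable {c : ℝ} {u : ℂ → ℝ} {K : Set ℂ}

theorem b5_ycomp (h : GM c u K) (h0 : ∀ z ∉ K, fderiv ℝ u z = 0) {y : ℂ} {s : ℝ} (hs : 0 < s)
    {P : Finset ℂ} (hP : (P : Set ℂ) = K ∩ sphere y s) (h4 : 4 ≤ P.card) :
    lenc K y s ≤ (P.card - 1 / 20) * s := by
  classical
  have hs0 : (s : ℂ) ≠ 0 := by exact_mod_cast hs.ne'
  set S : ℂ → ℂ := fun w => (w - y) / s with hS
  set T : ℂ → ℂ := fun z => y + s * z with hT
  have hTS : ∀ w, T (S w) = w := fun w => by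
    simp only [hS, hT]; field_simp; ring
  have hST : ∀ z, S (T z) = z := fun z => by
    simp only [hS, hT]; field_simp; ring
  have hSn : ∀ w, ‖S w‖ = dist w y / s := fun w => by
    simp only [hS, norm_div, Complex.norm_real, Real.norm_eq_abs, abs_of_pos hs, dist_eq_norm]
  have hSi : Function.Injective S := Function.LeftInverse.injective hTS
  have hSc : Continuous S := by simp only [hS]; fun_prop
  have hTc : Continuous T := by simp only [hT]; fun_prop
  have hcard : (P.image S).card = P.card := Finset.card_image_of_injective _ hSi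
  have hP1 : ∀ p ∈ P.image S, ‖p‖ = 1 := by
    intro p hp
    obtain ⟨w, hw, rfl⟩ := Finset.mem_image.1 hp
    have h1 : w ∈ K ∩ sphere y s := by rw [← hP]; exact hw
    rw [hSn, mem_sphere.1 h1.2, div_self hs.ne']
  obtain ⟨L₀, π, hc, hsub, hPL, hπc, hπ1, hπid, hlen⟩ := b5_ygeo hP1 (hcard ▸ h4)
  have hmap : ∀ z ∈ closedBall y s \ S ⁻¹' L₀, S z ∈ closedBall (0 : ℂ) 1 \ L₀ := by
    intro z hz
    refine ⟨?_, hz.2⟩
    rw [mem_closedBall_zero_iff, hSn, div_le_one hs]
    exact hz.1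
  have key := b5_swap h h0 (y := y) hs (L₀ := S ⁻¹' L₀) (hc.isClosed.preimage hSc)
    (fun w hw => by
      have h1 := hsub hw
      rw [mem_closedBall_zero_iff, hSn, div_le_one hs] at h1
      exact h1)
    (π := fun w => T (π (S w)))
    (hTc.comp_continuousOn (hπc.comp hSc.continuousOn hmap))
    (fun z hz hK => by
      obtain ⟨h1, h2⟩ := hπ1 _ (hmap z hz)
      apply h2
      have h3 : T (π (S z)) ∈ K ∩ sphere y s := by
        refine ⟨hK, ?_⟩
        have h4 := hSn (T (π (S z)))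
        rw [hST, h1, eq_div_iff hs.ne', one_mul] at h4
        exact mem_sphere.2 h4.symm
      rw [← hP] at h3
      exact Finset.mem_image.2 ⟨_, h3, hST _⟩)
    (fun z hz => by
      have h1 : S z ∈ sphere (0 : ℂ) 1 \ L₀ := by
        refine ⟨?_, hz.2⟩
        rw [mem_sphere_zero_iff_norm, hSn, mem_sphere.1 hz.1, div_self hs.ne']
      simp only [hπid _ h1, hTS])
    (fun z hz => by
      rw [← hP] at hz
      exact hPL (Finset.mem_coe.2 (Finset.mem_image_of_mem S hz)))
  have himg : S ⁻¹' L₀ = T '' L₀ := by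
    ext w
    constructor
    · intro hw
      exact ⟨S w, hw, hTS w⟩
    · rintro ⟨z, hz, rfl⟩
      simpa only [mem_preimage, hST] using hz
  have hlip : LipschitzWith s.toNNReal T := by
    refine LipschitzWith.of_dist_le_mul fun a b => le_of_eq ?_
    simp only [hT, dist_eq_norm, Real.coe_toNNReal _ hs.le]
    rw [show y + s * a - (y + s * b) = s * (a - b) by ring, norm_mul, Complex.norm_real,
      Real.norm_eq_abs, abs_of_pos hs]
  have h5 := hlip.hausdorffMeasure_image_le (d := 1) zero_le_one L₀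
  rw [ENNReal.rpow_one] at h5
  rw [himg, (h.toAM0.upper_real hs (subset_univ _)).2.2.1] at key
  have h6 : (4 : ℝ) ≤ P.card := by exact_mod_cast h4
  have h7 : ENNReal.ofReal (lenc K y s) ≤ ENNReal.ofReal ((P.card - 1 / 20) * s) := by
    refine key.trans (h5.trans ?_)
    rw [mul_comm _ s, ENNReal.ofReal_mul hs.le, ← hcard]
    exact mul_le_mul_right hlen _
  exact (ENNReal.ofReal_le_ofReal_iff (mul_nonneg (by linarith) hs.le)).1 h7

theorem b5_UB3 (h : GM c u K) (h0 : ∀ z ∉ K, fderiv ℝ u z = 0) (y : ℂ) {s : ℝ} (hs : 0 < s) :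
    lenc K y s ≤ 3 * s := by
  by_contra hcon
  push Not at hcon
  set A : Set ℝ := (fun t => lenc K y t / t) '' Ioi 0 with hA
  have h8 : ∀ x ∈ A, x ≤ 8 := by
    rintro x ⟨t, ht, rfl⟩
    obtain ⟨-, -, -, -, -, p1, -, -, p2⟩ := h.toAM0.upper_real (y := y) ht (subset_univ _)
    have ht' : 0 < t := ht
    simp only
    rw [div_le_iff₀ ht']
    linarith
  have hbdd : BddAbove A := ⟨8, h8⟩
  have hne : A.Nonempty := ⟨_, s, hs, rfl⟩
  set Θ := sSup A with hΘ
  have hΘ8 : Θ ≤ 8 := csSup_le hne h8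
  have hle : ∀ t, 0 < t → lenc K y t ≤ Θ * t := fun t ht => by
    have h1 : lenc K y t / t ≤ Θ := le_csSup hbdd ⟨t, ht, rfl⟩
    rwa [div_le_iff₀ ht] at h1
  have hΘ3 : 3 < Θ := by
    have h1 := hle s hs
    by_contra h2
    push Not at h2
    nlinarith
  obtain ⟨σ, hσ0, hσ1, hσ2⟩ : ∃ σ : ℝ, 0 < σ ∧ σ ≤ 1 / 400 ∧ σ ≤ (Θ - 3) / 20 :=
    ⟨min (1 / 400) ((Θ - 3) / 20), lt_min (by norm_num) (by linarith), min_le_left _ _,
      min_le_right _ _⟩
  obtain ⟨x, ⟨R, hR, rfl⟩, hx⟩ := exists_lt_of_lt_csSup hne (show Θ - σ / 100 < Θ by linarith)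
  have hR0 : 0 < R := hR
  simp only at hx
  rw [lt_div_iff₀ hR0] at hx
  have hb : R < (1 + σ) * R := by nlinarith
  have hb0 : 0 < (1 + σ) * R := hR0.trans hb
  have hm : 0 ≤ Θ - 9 * σ + 1 / 20 := by linarith
  have hfin := ae_restrict_of_ae_restrict_of_subset (Ioo_subset_Ioo_left hR0.le)
    (diz_fin (y := y) h.toAM0 hb0 (subset_univ _))
  have hann := b5_ann h y hR0.le hb hm (by
    filter_upwards [hfin, ae_restrict_mem measurableSet_Ioo] with t ht htI
    have ht0 : 0 < t := hR0.trans htI.1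
    have hP : (ht.toFinset : Set ℂ) = K ∩ sphere y t := ht.coe_toFinset
    obtain ⟨-, -, -, -, -, -, -, q1, -⟩ := h.toAM0.upper_real (y := y) ht0 (subset_univ _)
    have q2 := (h.toAM0.mono_real (y := y) ht0 (subset_univ _)).2.1 y R
      (closedBall_subset_ball htI.1)
    have q3 : (Θ - 9 * σ) * t ≤ (Θ - 9 * σ) * ((1 + σ) * R) :=
      mul_le_mul_of_nonneg_left htI.2.le (by linarith)
    have q4 : (Θ - 9 * σ) * (1 + σ) ≤ Θ - σ / 100 := by nlinarith
    have q5 : (Θ - 9 * σ) * ((1 + σ) * R) ≤ (Θ - σ / 100) * R := by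
      rw [← mul_assoc]
      exact mul_le_mul_of_nonneg_right q4 hR0.le
    have q6 : (Θ - 9 * σ) * t < lenc K y t := by linarith
    have q7 := b5_T6_center h h0 ht0 hP
    have q8 : (3 : ℝ) < ht.toFinset.card := by
      have q9 : (Θ - 9 * σ) * t < ht.toFinset.card * t := q6.trans_le q7
      have q10 := lt_of_mul_lt_mul_right q9 ht0.le
      linarith
    have q11 : 4 ≤ ht.toFinset.card := by
      have q12 : 3 < ht.toFinset.card := by exact_mod_cast q8
      omega
    have q13 := b5_ycomp h h0 ht0 hP q11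
    have q14 : Θ - 9 * σ + 1 / 20 ≤ ht.toFinset.card := by
      have q15 := lt_of_mul_lt_mul_right (q6.trans_le q13) ht0.le
      linarith
    rw [ht.encard_eq_coe_toFinset_card]
    simpa using ENNReal.ofReal_le_ofReal q14)
  obtain ⟨-, -, -, -, -, -, -, r1, -⟩ := h.toAM0.upper_real (y := y) hb0 (subset_univ _)
  have r2 := hle _ hb0
  have r3 : (Θ - 9 * σ + 1 / 20) * (σ * R) ≤ (Θ + 1 / 100) * (σ * R) := by nlinarith
  have r4 := le_of_mul_le_mul_right r3 (mul_pos hσ0 hR0)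
  linarith

end Vale.Agent.P128
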