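import Vale.Agent.P128.B5.RigB
import Vale.Agent.P128.B5.UB3

/-! P128 B5/End (TASK): the end of the classification.

Plan for `b5_dich`. If some `s > 0` has `encard = 2`: `lenc s ≤ 2 s` (`b5_T6_center`), for `t < s`
`lenc t + 2 (s - t) ≤ len s` (`b5_ann`, `b5_two_le`, `diz_fin`) and `2 t ≤ len t ≤ lenc t` (`b5_LB2`), so
`lenc t = 2 t` on `Ioc 0 s` and `b5_rig` applies. Otherwise almost every section has `encard ≥ 3`
(finite, `≥ 2`, `≠ 2`), so `3 s ≤ len s` (`b5_ann` with `a = 0`), `lenc s = 3 s` by `b5_UB3`;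
`b5_rig` for `s₁ = 1` gives `e`, for `s₁ ≥ 1` gives `e'` with the same cone (`b5_cone_of_ball`).
Plan for `b5_line`. `A = {t : ℝ | ∀ᶠ t' in 𝓝 t, y + t' * e ∈ K}` is open, contains `0`, and is closed:
for `t ∈ closure A` the point `z = y + t e` is in `K`, near `z` the set `K` is a line `cone 2 z e'`, which
contains some `y + t' e` with `t' ≠ t`, so `e' = ± e` up to `b5_mem_two` (`e` is a real multiple of `e'`).
`IsClopen.eq_univ`.
Plan for `b5_one_line`. If `z ∈ K` is off the line `ℓ` then there is a second line `ℓ' ⊆ K` through `z`;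
`ℓ ∩ ℓ'` is a subsingleton. With `d = dist z y`, `R = 2 d + 1`: `K ∩ closedBall y R` contains the
images of `Icc (-R) R` and `Icc (-(R - d)) (R - d)` (`b5_ray_len`, `measure_union_add_inter`), so
`lenc K y R ≥ 4 R - 2 d > 3 R`, against `b5_UB3`. -/

namespace Vale.Agent.P128

open MeasureTheory Set Metric Filter Topology
open scoped ENNReal NNReal

variable {c : ℝ} {u : ℂ → ℝ} {K : Set ℂ}

theorem b5End_ae (h : GM c u K) (h0 : ∀ z ∉ K, fderiv ℝ u z = 0) {y : ℂ} (hy : y ∈ K)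
    {a b : ℝ} (ha : 0 ≤ a) (hab : a < b) :
    ∀ᵐ s ∂(volume.restrict (Ioo a b)), 0 < s ∧ 2 ≤ (K ∩ sphere y s).encard := by
  filter_upwards [ae_restrict_of_ae_restrict_of_subset (Ioo_subset_Ioo_left ha)
    (diz_fin (y := y) h.toAM0 (ha.trans_lt hab) (subset_univ _)),
    ae_restrict_mem measurableSet_Ioo] with s hf hs
  exact ⟨ha.trans_lt hs.1, b5_two_le h h0 hy (ha.trans_lt hs.1) hf⟩

theorem b5_dich (h : GM c u K) (h0 : ∀ z ∉ K, fderiv ℝ u z = 0) {y : ℂ} (hy : y ∈ K) :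
    (∃ s : ℝ, 0 < s ∧ ∃ e : ℂ, ‖e‖ = 1 ∧ K ∩ ball y s = cone 2 y e ∩ ball y s) ∨
      ∃ e : ℂ, ‖e‖ = 1 ∧ K = cone 3 y e := by
  have hle : ∀ t, 0 < t → len K y t ≤ lenc K y t := fun t ht =>
    (h.toAM0.upper_real ht (subset_univ _)).2.2.2.2.2.2.2.1
  by_cases h2 : ∃ s, 0 < s ∧ (K ∩ sphere y s).encard = 2
  · obtain ⟨s, hs, h2⟩ := h2
    refine Or.inl ⟨s, hs, b5_rig h h0 hy (Or.inl rfl) hs fun t ht => ?_⟩
    have hfin : (K ∩ sphere y s).Finite := finite_of_encard_eq_coe (k := 2) h2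
    have h3 := b5_T6_center h h0 hs hfin.coe_toFinset
    have hc : hfin.toFinset.card = 2 := by
      have h4 := hfin.encard_eq_coe_toFinset_card
      rw [h2] at h4
      exact_mod_cast h4.symm
    rw [hc] at h3
    refine le_antisymm ?_ ((b5_LB2 h h0 hy ht.1).trans (hle t ht.1))
    rcases ht.2.eq_or_lt with rfl | hts
    · exact h3
    · have h4 := b5_ann h y ht.1.le hts zero_le_two ((b5End_ae h h0 hy ht.1.le hts).mono
        fun r hr => by simpa using ENat.toENNReal_le.2 hr.2)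
      have h5 := hle s hs
      push_cast at h3 ⊢
      linarith
  · have h3 : ∀ s, 0 < s → ∃ e : ℂ, ‖e‖ = 1 ∧ K ∩ ball y s = cone 3 y e ∩ ball y s := by
      refine fun s hs => b5_rig h h0 hy (Or.inr rfl) hs fun t ht => ?_
      have h4 := b5_ann h y le_rfl ht.1 zero_le_three ((b5End_ae h h0 hy le_rfl ht.1).mono
        fun r hr => by
          have h5 : (3 : ℕ∞) ≤ (K ∩ sphere y r).encard :=
            Order.add_one_le_of_lt (lt_of_le_of_ne hr.2 fun e => h2 ⟨r, hr.1, e.symm⟩)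
          simpa using ENat.toENNReal_le.2 h5)
      have h5 := hle t ht.1
      have h6 := b5_UB3 h h0 y ht.1
      have h7 : 0 ≤ lenc K y 0 := ENNReal.toReal_nonneg
      push_cast
      linarith
    obtain ⟨e, he, h4⟩ := h3 1 one_pos
    refine Or.inr ⟨e, he, Set.ext fun z => ?_⟩
    obtain ⟨e', he', h5⟩ := h3 (dist z y + 1) (by positivity)
    have hz : z ∈ ball y (dist z y + 1) := mem_ball.2 (lt_add_one _)
    rw [← b5_cone_of_ball three_pos he he' one_pos fun w hw => ?_]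
    · exact ⟨fun hK => (h5.subset ⟨hK, hz⟩).1, fun hK => (h5.symm.subset ⟨hK, hz⟩).1⟩
    · exact (h4.subset ⟨(h5.symm.subset ⟨hw.1, ball_subset_ball (by
        linarith [dist_nonneg (x := z) (y := y)]) hw.2⟩).1, hw.2⟩).1

theorem b5_line (hK : IsClosed K)
    (hloc : ∀ y ∈ K, ∃ s : ℝ, 0 < s ∧ ∃ e : ℂ, ‖e‖ = 1 ∧ K ∩ ball y s = cone 2 y e ∩ ball y s)
    {y : ℂ} (hy : y ∈ K) : ∃ e : ℂ, ‖e‖ = 1 ∧ cone 2 y e ⊆ K := by
  obtain ⟨s, hs, e, he, h1⟩ := hloc y hy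
  have hc : Continuous fun t : ℝ => y + t * e := by fun_prop
  have hb : ∀ (t r : ℝ), 0 < r → ∀ᶠ t' : ℝ in 𝓝 t, y + t' * e ∈ ball (y + t * e) r :=
    fun t r hr => hc.continuousAt.eventually (ball_mem_nhds _ hr)
  have hA : {t : ℝ | ∀ᶠ t' : ℝ in 𝓝 t, y + t' * e ∈ K} = univ := by
    refine IsClopen.eq_univ ⟨isClosed_of_closure_subset fun t ht => ?_,
      isOpen_setOfPred_eventually_nhds⟩ ⟨0, ?_⟩
    · have hz : y + t * e ∈ K :=
        (hK.preimage hc).closure_subset_iff.2 (fun t ht => ht.self_of_nhds) ht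
      obtain ⟨r, hr, e', -, h2⟩ := hloc _ hz
      obtain ⟨t1, h3, h4⟩ := mem_closure_iff_nhds.1 ht _ (hb t r hr).eventually_nhds
      obtain ⟨t', h5, h6⟩ := (dense_compl_singleton t).inter_nhds_nonempty
        (Eventually.and h4 h3)
      obtain ⟨τ, hτ⟩ := (b5_mem_two _ _ _).1 (h2.subset h6).1
      have h7 : ((t' : ℂ) - t) ≠ 0 := by exact_mod_cast sub_ne_zero.2 h5
      filter_upwards [hb t r hr] with x hx
      refine (h2.symm.subset ⟨(b5_mem_two _ _ _).2 ⟨(x - t) * τ / (t' - t), ?_⟩, hx⟩).1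
      push_cast
      field_simp
      linear_combination (x - t : ℂ) * hτ
    · filter_upwards [hb 0 s hs] with x hx
      refine (h1.symm.subset ⟨(b5_mem_two _ _ _).2 ⟨x, rfl⟩, ?_⟩).1
      simpa using hx
  refine ⟨e, he, fun w hw => ?_⟩
  obtain ⟨t, rfl⟩ := (b5_mem_two _ _ _).1 hw
  exact Eventually.self_of_nhds (p := fun t' : ℝ => y + t' * e ∈ K) (hA.symm.subset (mem_univ t))

theorem b5_one_line (h : GM c u K) (h0 : ∀ z ∉ K, fderiv ℝ u z = 0)
    (hline : ∀ y ∈ K, ∃ e : ℂ, ‖e‖ = 1 ∧ cone 2 y e ⊆ K) {y : ℂ} (hy : y ∈ K) :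
    ∃ e : ℂ, ‖e‖ = 1 ∧ K = cone 2 y e := by
  obtain ⟨e, he, h1⟩ := hline y hy
  refine ⟨e, he, Subset.antisymm (fun z hz => by_contra fun hz' => ?_) h1⟩
  obtain ⟨e', he', h2⟩ := hline z hz
  obtain ⟨d, hd⟩ : ∃ d, d = dist z y := ⟨_, rfl⟩
  have hd0 : 0 ≤ d := hd ▸ dist_nonneg
  have hR : 0 < 2 * d + 1 := by positivity
  have hn : ∀ (w v : ℂ) (t : ℝ), ‖v‖ = 1 → dist (w + t * v) w = |t| := fun w v t hv => by
    rw [dist_self_add_left, norm_mul, hv, mul_one, Complex.norm_real, Real.norm_eq_abs]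
  have s1 : (fun t : ℝ => y + t * e) '' Icc (-(2 * d + 1)) (2 * d + 1) ∪
      (fun t : ℝ => z + t * e') '' Icc (-(d + 1)) (d + 1) ⊆ K ∩ closedBall y (2 * d + 1) := by
    rintro _ (⟨t, ht, rfl⟩ | ⟨t, ht, rfl⟩)
    · exact ⟨h1 ((b5_mem_two _ _ _).2 ⟨t, rfl⟩), (hn y e t he).trans_le (abs_le.2 ht)⟩
    · refine ⟨h2 ((b5_mem_two _ _ _).2 ⟨t, rfl⟩), (dist_triangle _ z _).trans ?_⟩
      rw [hn z e' t he', ← hd]
      linarith [abs_le.2 ht]
  have s2 : ((fun t : ℝ => y + t * e) '' Icc (-(2 * d + 1)) (2 * d + 1) ∩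
      (fun t : ℝ => z + t * e') '' Icc (-(d + 1)) (d + 1)).Subsingleton := by
    rintro _ ⟨⟨a, -, rfl⟩, b, -, hb⟩ _ ⟨⟨a', -, rfl⟩, b', -, hb'⟩
    by_contra hne
    simp only at hb hb' hne
    have h3 : (b : ℂ) - b' ≠ 0 := fun h3 => hne (by rw [← hb, ← hb', sub_eq_zero.1 h3])
    refine hz' ((b5_mem_two _ _ _).2 ⟨a - b * (a - a') / (b - b'), ?_⟩)
    push_cast
    field_simp
    linear_combination (b : ℂ) * hb' - (b' : ℂ) * hb
  have := Measure.nullSingletonClass_hausdorff ℂ one_pos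
  have m2 : MeasurableSet ((fun t : ℝ => z + t * e') '' Icc (-(d + 1)) (d + 1)) :=
    (isCompact_Icc.image (by fun_prop)).measurableSet
  have h4 := measure_mono (μ := μH[1]) s1
  rw [measure_union₀ m2.nullMeasurableSet (s2.measure_zero _), b5_ray_len y he, b5_ray_len z he',
    Real.volume_Icc, Real.volume_Icc, (h.toAM0.upper_real hR (subset_univ _)).2.2.1,
    ← ENNReal.ofReal_add (by linarith) (by linarith),
    ENNReal.ofReal_le_ofReal_iff (q := lenc K y _) ENNReal.toReal_nonneg] at h4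
  have h5 := h4.trans (b5_UB3 h h0 y hR)
  linarith

end Vale.Agent.P128
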