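import Vale.Agent.P128.B4.Main
import Vale.Agent.P128.B5.End
import Vale.Agent.P128.B5.ConeLen

/-! P128 block B5: global minimizers with locally constant function. Interface. -/

namespace Vale.Agent.P128

open MeasureTheory Set Metric Filter Topology
open scoped ENNReal

theorem network {c : ℝ} {u : ℂ → ℝ} {K : Set ℂ} (h : GM c u K)
    (h0 : ∀ z ∉ K, fderiv ℝ u z = 0) (hne : K.Nonempty) : IsNet u K := by
  refine ⟨h0, ?_⟩
  by_cases h3 : ∃ y ∈ K, ∃ e : ℂ, ‖e‖ = 1 ∧ K = cone 3 y e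
  · obtain ⟨y, -, e, he, hK⟩ := h3
    exact ⟨y, e, he, Or.inr hK⟩
  · obtain ⟨y, hy⟩ := hne
    have hloc : ∀ y ∈ K, ∃ s : ℝ, 0 < s ∧ ∃ e : ℂ, ‖e‖ = 1 ∧
        K ∩ ball y s = cone 2 y e ∩ ball y s := fun y hy =>
      (b5_dich h h0 hy).resolve_right fun h' => h3 ⟨y, hy, h'⟩
    obtain ⟨e, he, hK⟩ := b5_one_line h h0 (fun y hy => b5_line h.closed hloc hy) hy
    exact ⟨y, e, he, Or.inl hK⟩

/-- Lengths of cones in balls. -/
theorem cone_len {N : ℕ} (hN : N = 1 ∨ N = 2 ∨ N = 3) {z e : ℂ} (he : ‖e‖ = 1) :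
    IsClosed (cone N z e) ∧ IsPreconnected (cone N z e) ∧ z ∈ cone N z e ∧
    (∀ t, 0 ≤ t → len (cone N z e) z t = N * t ∧ lenc (cone N z e) z t = N * t) ∧
    (∀ y ∈ cone N z e, ∀ t, 0 ≤ t → t ≤ dist y z → lenc (cone N z e) y t ≤ 2 * t) ∧
    (∀ y ∈ cone 2 z e, cone 2 y e = cone 2 z e) ∧
    (∀ y ∈ cone 3 z e, ∀ t, dist y z ≤ t →
      len (cone 3 z e) y t = t + √(4 * t ^ 2 - 3 * dist y z ^ 2) ∧
      lenc (cone 3 z e) y t = t + √(4 * t ^ 2 - 3 * dist y z ^ 2)) ∧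
    (∀ y ∈ cone 3 z e, y ≠ z → ∃ e' : ℂ, ‖e'‖ = 1 ∧
      cone 3 z e ∩ closedBall y (dist y z) = cone 2 y e' ∩ closedBall y (dist y z)) := by
  exact cone_len' hN he

end Vale.Agent.P128
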