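import Vale.Agent.P128.Defs

/-! P128 B5/Move (TASK): moving a radius of the unit disc to a segment from an interior point.

Plan for `b5_move0`. Let `O = a - b i`, `A z = (z * conj O).im`, `B z = ((z - O) * conj (1 - O)).im`,
`U = {z | 0 < A z ∧ 0 < B z}` (open). Every `z` is `O + α (-O) + β (1 - O)` with `β = A z / b`,
`α = B z / b`. Let `g z = max 0 (ε * min z.re (1 - ‖z‖) - z.im)` (continuous) and
`G z = if z ∈ U then z + g z * I else z`.
* Continuity on `S` (`ContinuousOn.if`/`continuousOn_if`, or `ContinuousOn.piecewise`): on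
  `S ∩ frontier U` we need `g z = 0`. There `A, B ≥ 0` and one of them vanishes. If `A z = 0` then
  `z = (1 - α) O`: for `α ≤ 1` it is in `segment 0 O ⊆ M`, for `α > 1` it has `re < 0 < im`, so `g = 0`.
  If `B z = 0` then `z = O + β (1 - O)`: for `β ≤ 1` it is in `segment O 1`, for `β > 1` it has `re > 1`.
* Key remark: `z ∈ U`, `im z ≤ 0` imply `z = (1 - α - β) O + β` with `1 - α - β ≥ 0`, `β > 0`, `α > 0`,
  hence `re z > 0` and `‖z‖ < 1`.
* MapsTo: if `z ∈ U` and `g z > 0` then `m = min (re z) (1 - ‖z‖) > 0` (by the remark if `im z ≤ 0`,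
  directly otherwise), `G z = re z + ε m i` lies in the sector, so not in `M`, not real, and
  `‖G z‖ ≤ |re z| + m ≤ 1`. Otherwise `G z = z`, and `z ∈ segment 0 1` is impossible: `0 ∈ M`,
  `1 ∈ segment O 1`, and `x ∈ (0,1)` is in `U` with `g x > 0`.
* On the circle: if `z ∈ U` then `im z > 0` by the remark, so `g z = 0`.
`b5_move`: conjugate by `φ`: apply `b5_move0` to `φ O`, `φ '' M` and take `φ.symm ∘ G ∘ φ`
(`image_segment` for the linear map, `φ.norm_map`). -/

namespace Vale.Agent.P128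

open MeasureTheory Set Metric Filter Topology
open scoped ENNReal NNReal

theorem b5_move0 {O : ℂ} (ha : 0 < O.re) (hb : O.im < 0) (hO : ‖O‖ < 1) {M : Set ℂ}
    (hM : segment ℝ 0 O ⊆ M) {ε : ℝ} (hε : 0 < ε) (hε1 : ε ≤ 1)
    (hsec : ∀ z ∈ M, ¬ (0 < z.im ∧ z.im ≤ ε * z.re)) :
    ∃ G : ℂ → ℂ, ContinuousOn G (closedBall 0 1 \ (M ∪ segment ℝ O 1)) ∧
      MapsTo G (closedBall 0 1 \ (M ∪ segment ℝ O 1)) (closedBall 0 1 \ (M ∪ segment ℝ 0 1)) ∧
      ∀ z ∈ sphere (0 : ℂ) 1, G z = z := by
  classical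
  let γ : ℂ → ℝ := fun z => z.im / O.im
  let β : ℂ → ℝ := fun z => z.re - γ z * O.re
  let g : ℂ → ℝ := fun z => max 0 (ε * min z.re (1 - ‖z‖) - z.im)
  have cγ : Continuous γ := Complex.continuous_im.div_const _
  have cβ : Continuous β := Complex.continuous_re.sub (cγ.mul continuous_const)
  have cg : Continuous g := continuous_const.max
    ((continuous_const.mul (Complex.continuous_re.min (continuous_const.sub continuous_norm))).sub
      Complex.continuous_im)
  have him : ∀ z, z.im = γ z * O.im := fun z => (div_mul_cancel₀ _ hb.ne).symm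
  have hre : ∀ z, z.re = γ z * O.re + β z := fun z => by simp only [β]; ring
  have dec : ∀ z, γ z • O + β z • (1 : ℂ) = z := fun z => by
    apply Complex.ext
    · simp [hre z]
    · simp [him z]
  have ha1 : O.re < 1 := ((le_abs_self _).trans (Complex.abs_re_le_norm O)).trans_lt hO
  have key : ∀ z, 0 < β z → β z + γ z < 1 → z.im ≤ 0 → 0 < z.re ∧ ‖z‖ < 1 := by
    intro z h1 h2 h3
    have h4 : 0 ≤ γ z := div_nonneg_of_nonpos h3 hb.le
    refine ⟨by rw [hre z]; positivity, ?_⟩
    have h5 := norm_add_le (γ z • O) (β z • (1 : ℂ))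
    rw [dec, norm_smul, norm_smul, norm_one, Real.norm_of_nonneg h4, Real.norm_of_nonneg h1.le] at h5
    nlinarith [mul_le_mul_of_nonneg_left hO.le h4]
  have g0 : ∀ z, min z.re (1 - ‖z‖) ≤ 0 → 0 ≤ z.im → g z = 0 := fun z h1 h2 =>
    max_eq_left (by nlinarith)
  have hU : IsOpen {z | 0 < β z ∧ β z + γ z < 1} :=
    (isOpen_lt continuous_const cβ).inter (isOpen_lt (cβ.add cγ) continuous_const)
  have hcl : closure {z | 0 < β z ∧ β z + γ z < 1} ⊆ {z | 0 ≤ β z ∧ β z + γ z ≤ 1} :=
    closure_minimal (fun z hz => ⟨hz.1.le, hz.2.le⟩)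
      ((isClosed_le continuous_const cβ).inter (isClosed_le (cβ.add cγ) continuous_const))
  refine ⟨fun z => if 0 < β z ∧ β z + γ z < 1 then z + g z * Complex.I else z, ?_, ?_, ?_⟩
  · refine ContinuousOn.if ?_ (continuous_id.add
      ((Complex.continuous_ofReal.comp cg).mul continuous_const)).continuousOn continuousOn_id
    rintro z ⟨⟨h1, h2⟩, h3⟩
    rw [hU.frontier_eq] at h3
    obtain ⟨h4, h5⟩ := hcl h3.1
    have h6 : g z = 0 := by
      rcases lt_or_ge (γ z) 0 with h7 | h7
      · have h8 : 0 ≤ z.im := by rw [him z]; nlinarith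
        rcases h4.eq_or_lt with h9 | h9
        · exact g0 z ((min_le_left _ _).trans (by rw [hre z]; nlinarith)) h8
        · have h10 : β z + γ z = 1 := by
            by_contra h11
            exact h3.2 ⟨h9, lt_of_le_of_ne h5 h11⟩
          have h11 := (le_abs_self _).trans (Complex.abs_re_le_norm z)
          have h12 := hre z
          exact g0 z ((min_le_right _ _).trans (by nlinarith)) h8
      · exfalso
        rcases h4.eq_or_lt with h9 | h9
        · refine h2 (Or.inl (hM ⟨1 - γ z, γ z, by linarith, h7, by ring, ?_⟩))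
          have := dec z
          rwa [← h9, zero_smul, add_zero, ← zero_add (γ z • O), ← smul_zero (1 - γ z)] at this
        · have h10 : β z + γ z = 1 := by
            by_contra h11
            exact h3.2 ⟨h9, lt_of_le_of_ne h5 h11⟩
          exact h2 (Or.inr ⟨γ z, β z, h7, h4, by linarith, dec z⟩)
    simp [h6]
  · rintro z ⟨h1, h2⟩
    have h0 : ¬ ((0 < β z ∧ β z + γ z < 1) ∧ 0 < g z) → z ∉ M ∪ segment ℝ 0 1 := by
      rintro h3 (h4 | ⟨s, x, hs, hx, hsx, rfl⟩)
      · exact h2 (Or.inl h4)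
      · rw [smul_zero, zero_add] at h2 h3
        rcases hx.eq_or_lt with rfl | hx
        · exact h2 (Or.inl (by rw [zero_smul]; exact hM (left_mem_segment _ _ _)))
        rcases hs.eq_or_lt with rfl | hs
        · rw [zero_add] at hsx
          exact h2 (Or.inr (by rw [hsx, one_smul]; exact right_mem_segment _ _ _))
        have e1 : γ (x • (1 : ℂ)) = 0 := by simp [γ]
        have e2 : β (x • (1 : ℂ)) = x := by simp [β, γ]
        refine h3 ⟨⟨by rwa [e2], by rw [e1, e2]; linarith⟩, lt_max_of_lt_right ?_⟩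
        have e3 : ‖x • (1 : ℂ)‖ = x := by rw [norm_smul, norm_one, mul_one, Real.norm_of_nonneg hx.le]
        have e4 : (x • (1 : ℂ)).re = x := by simp
        have e5 : (x • (1 : ℂ)).im = 0 := by simp
        rw [e3, e4, e5, sub_zero]
        exact mul_pos hε (lt_min hx (by linarith))
    by_cases h3 : (0 < β z ∧ β z + γ z < 1) ∧ 0 < g z
    · have h4 : 0 < ε * min z.re (1 - ‖z‖) - z.im := by
        rcases lt_max_iff.1 h3.2 with h | h
        · exact absurd h (lt_irrefl _)
        · exact h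
      have h5 : g z = ε * min z.re (1 - ‖z‖) - z.im := max_eq_right h4.le
      have hm : 0 < min z.re (1 - ‖z‖) := by
        rcases le_or_gt z.im 0 with h | h
        · have := key z h3.1.1 h3.1.2 h
          exact lt_min this.1 (by linarith [this.2])
        · exact (mul_pos_iff_of_pos_left hε).1 (by linarith)
      have e1 : (z + g z * Complex.I).re = z.re := by simp
      have e2 : (z + g z * Complex.I).im = ε * min z.re (1 - ‖z‖) := by simp [h5]
      have h6 := mul_pos hε hm
      show (if _ then _ else _) ∈ _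
      rw [if_pos h3.1]
      refine ⟨mem_closedBall_zero_iff.2 ((Complex.norm_le_abs_re_add_abs_im _).trans ?_), ?_⟩
      · rw [e1, e2, abs_of_pos h6]
        nlinarith [Complex.abs_re_le_norm z, min_le_right z.re (1 - ‖z‖)]
      · rintro (h | ⟨s, x, -, -, -, h⟩)
        · refine hsec _ h ⟨by rwa [e2], ?_⟩
          rw [e1, e2]
          exact mul_le_mul_of_nonneg_left (min_le_left _ _) hε.le
        · have := congrArg Complex.im h
          rw [e2] at this
          simp only [smul_zero, zero_add, Complex.real_smul, mul_one, Complex.ofReal_im] at this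
          linarith
    · have e : (if 0 < β z ∧ β z + γ z < 1 then z + g z * Complex.I else z) = z := by
        split_ifs with h
        · have : g z = 0 := le_antisymm (not_lt.1 fun h' => h3 ⟨h, h'⟩) (le_max_left _ _)
          simp [this]
        · rfl
      show (if _ then _ else _) ∈ _
      rw [e]
      exact ⟨h1, h0 h3⟩
  · intro z hz
    have hz' : ‖z‖ = 1 := mem_sphere_zero_iff_norm.1 hz
    show (if _ then _ else _) = _
    split_ifs with h
    · have h1 : 0 ≤ z.im := le_of_not_ge fun h' => (key z h.1 h.2 h').2.ne hz'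
      simp [g0 z ((min_le_right _ _).trans (by linarith)) h1]
    · rfl

theorem b5_move (φ : ℂ ≃ₗᵢ[ℝ] ℂ) {O p : ℂ} (hp : φ p = 1) (ha : 0 < (φ O).re)
    (hb : (φ O).im < 0) (hO : ‖O‖ < 1) {M : Set ℂ} (hM : segment ℝ 0 O ⊆ M) {ε : ℝ} (hε : 0 < ε)
    (hε1 : ε ≤ 1) (hsec : ∀ z ∈ M, ¬ (0 < (φ z).im ∧ (φ z).im ≤ ε * (φ z).re)) :
    ∃ G : ℂ → ℂ, ContinuousOn G (closedBall 0 1 \ (M ∪ segment ℝ O p)) ∧
      MapsTo G (closedBall 0 1 \ (M ∪ segment ℝ O p)) (closedBall 0 1 \ (M ∪ segment ℝ 0 p)) ∧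
      ∀ z ∈ sphere (0 : ℂ) 1, G z = z := by
  have hseg : ∀ x y z : ℂ, φ z ∈ segment ℝ (φ x) (φ y) ↔ z ∈ segment ℝ x y := by
    intro x y z
    have := image_segment ℝ φ.toLinearEquiv.toLinearMap.toAffineMap x y
    have e : segment ℝ (φ x) (φ y) = φ '' segment ℝ x y := this.symm
    rw [e, φ.injective.mem_set_image]
  have hmem : ∀ x z : ℂ, φ z ∈ closedBall 0 1 \ (φ '' M ∪ segment ℝ (φ x) 1) ↔
      z ∈ closedBall 0 1 \ (M ∪ segment ℝ x p) := by
    intro x z
    rw [← hp]
    simp only [Set.mem_sdiff, mem_closedBall_zero_iff, φ.norm_map, mem_union, hseg,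
      φ.injective.mem_set_image]
  obtain ⟨G, h1, h2, h3⟩ := b5_move0 (M := φ '' M) ha hb (by rwa [φ.norm_map])
    (fun z hz => by
      obtain ⟨w, rfl⟩ := φ.surjective z
      rw [← φ.map_zero, hseg] at hz
      exact mem_image_of_mem _ (hM hz)) hε hε1 (by rintro _ ⟨z, hz, rfl⟩; exact hsec z hz)
  refine ⟨fun z => φ.symm (G (φ z)), φ.symm.continuous.comp_continuousOn
    (h1.comp φ.continuous.continuousOn fun z hz => (hmem O z).2 hz), fun z hz => ?_,
    fun z hz => ?_⟩
  · refine (hmem 0 _).1 ?_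
    rw [φ.apply_symm_apply, φ.map_zero]
    exact h2 ((hmem O z).2 hz)
  · show φ.symm (G (φ z)) = z
    rw [h3 (φ z) (by simpa using hz), φ.symm_apply_apply]

end Vale.Agent.P128
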