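import Vale.Agent.P128.B5.Ann
import Vale.Agent.P128.B5.ConeA

/-! P128 B5/Reg (TASK): extremal sections are regular polygons.

Plan. `b5_sum_zero`: `S = ∑ (p - y)`, `n = card P > 0`, `O = y + S / (2 n)` (`‖S‖ ≤ n s`). For
`‖a‖ = s`: `‖a - v‖ ≤ (‖a - v‖^2 + s^2) / (2 s)` and `‖a - v‖^2 = s^2 - 2 (a * conj v).re + ‖v‖^2`;
summing, `b5_T6` gives `n s ≤ n s - ‖S‖^2/(2 n s) + ‖S‖^2/(8 n s)`.
`b5_three_vec`: three unit vectors `a, b, d` with sum zero: `‖a + b‖ = 1` gives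
`(b * conj a).re = -1/2`, so `b * conj a = -1/2 ± √3/2 i`; use `b5_rt`.
`b5_reg`: `Finset.card_eq_two`, `Finset.card_eq_three`; `e = (p₁ - y)/s`; `b5_mem_cone`, a point
`y + t (e rt^j)` with `t ≥ 0` is on the sphere iff `t = s`. -/

namespace Vale.Agent.P128

open MeasureTheory Set Metric Filter Topology
open scoped ENNReal NNReal

variable {c : ℝ} {u : ℂ → ℝ} {K : Set ℂ}

theorem b5_sum_zero (h : GM c u K) (h0 : ∀ z ∉ K, fderiv ℝ u z = 0) {y : ℂ} {s : ℝ} (hs : 0 < s)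
    {P : Finset ℂ} (hP : (P : Set ℂ) = K ∩ sphere y s) (hl : P.card * s ≤ lenc K y s) :
    ∑ p ∈ P, (p - y) = 0 := by
  rcases P.eq_empty_or_nonempty with rfl | hne
  · exact Finset.sum_empty
  have hn : (0 : ℝ) < P.card := Nat.cast_pos.2 hne.card_pos
  have hn' : (P.card : ℂ) ≠ 0 := Nat.cast_ne_zero.2 hne.card_pos.ne'
  have hp : ∀ p ∈ P, ‖p - y‖ = s := fun p hp =>
    mem_sphere_iff_norm.1 (hP ▸ Finset.mem_coe.2 hp : p ∈ K ∩ sphere y s).2
  obtain ⟨v, hv⟩ : ∃ v : ℂ, ∑ p ∈ P, (p - y) = ((2 * P.card : ℝ) : ℂ) * v :=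
    ⟨(∑ p ∈ P, (p - y)) / (2 * P.card), by push_cast; field_simp⟩
  have h1 : ‖v‖ ≤ s / 2 := by
    have := norm_sum_le_of_le P fun p h => (hp p h).le
    rw [hv, norm_mul, Complex.norm_real, Real.norm_of_nonneg (by positivity), Finset.sum_const,
      nsmul_eq_mul] at this
    exact le_of_mul_le_mul_left (this.trans_eq (by ring)) (by positivity : (0 : ℝ) < 2 * P.card)
  have h2 := hl.trans (b5_T6 h h0 hs hP (O := y + v)
    (by rwa [mem_closedBall_iff_norm, add_sub_cancel_left]))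
  have h3 : ∑ p ∈ P, 2 * s * dist p (y + v) ≤
      ∑ p ∈ P, (2 * s ^ 2 + Complex.normSq v - 2 * ((p - y) * (starRingEnd ℂ) v).re) :=
    Finset.sum_le_sum fun p h => by
      have e := Complex.normSq_sub (p - y) v
      rw [Complex.normSq_eq_norm_sq (p - y - v), Complex.normSq_eq_norm_sq (p - y), hp p h] at e
      rw [dist_eq_norm, ← sub_sub]
      linear_combination sq_nonneg (‖p - y - v‖ - s) + e
  rw [Finset.sum_sub_distrib, Finset.sum_const, nsmul_eq_mul, ← Finset.mul_sum, ← Finset.mul_sum,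
    ← Complex.re_sum, ← Finset.sum_mul, hv, mul_assoc _ v, Complex.mul_conj, ← Complex.ofReal_mul,
    Complex.ofReal_re] at h3
  have h4 := mul_le_mul_of_nonneg_left h2 (by positivity : 0 ≤ 2 * s)
  have h5 : Complex.normSq v ≤ 0 :=
    le_of_mul_le_mul_left (by linear_combination 1 / 3 * h3 + 1 / 3 * h4) hn
  rw [hv, Complex.normSq_eq_zero.1 (le_antisymm h5 (Complex.normSq_nonneg v)), mul_zero]

theorem b5_three_vec {a b d : ℂ} (ha : ‖a‖ = 1) (hb : ‖b‖ = 1) (hd : ‖d‖ = 1)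
    (h : a + b + d = 0) :
    (b = a * rt 3 ∧ d = a * rt 3 ^ 2) ∨ (b = a * rt 3 ^ 2 ∧ d = a * rt 3) := by
  obtain ⟨-, -, e3, e4, -⟩ := b5_rt
  have k : ∀ z : ℂ, ‖z‖ = 1 → z.re * z.re + z.im * z.im = 1 := fun z hz => by
    rw [← Complex.normSq_apply, Complex.normSq_eq_norm_sq, hz, one_pow]
  obtain rfl : d = -a - b := by linear_combination h
  have h1 := k a ha
  have h2 := k b hb
  have h3 := k _ hd
  simp only [Complex.sub_re, Complex.sub_im, Complex.neg_re, Complex.neg_im] at h3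
  have h4 : a.re * b.re + a.im * b.im = -1 / 2 := by linear_combination (h3 - h1 - h2) / 2
  have h5 : (b.im * a.re - b.re * a.im) ^ 2 = (√3 / 2) ^ 2 := by
    rw [div_pow, Real.sq_sqrt (by norm_num)]
    linear_combination (b.re * b.re + b.im * b.im) * h1 + h2 -
      (a.re * b.re + a.im * b.im - 1 / 2) * h4
  rw [e4, e3]
  rcases sq_eq_sq_iff_eq_or_eq_neg.1 h5 with q | q
  · refine Or.inl ⟨Complex.ext ?_ ?_, Complex.ext ?_ ?_⟩ <;>
      simp only [Complex.sub_re, Complex.sub_im, Complex.neg_re, Complex.neg_im, Complex.mul_re,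
        Complex.mul_im]
    · linear_combination a.re * h4 - a.im * q - b.re * h1
    · linear_combination a.im * h4 + a.re * q - b.im * h1
    · linear_combination -a.re * h4 + a.im * q + b.re * h1
    · linear_combination -a.im * h4 - a.re * q + b.im * h1
  · refine Or.inr ⟨Complex.ext ?_ ?_, Complex.ext ?_ ?_⟩ <;>
      simp only [Complex.sub_re, Complex.sub_im, Complex.neg_re, Complex.neg_im, Complex.mul_re,
        Complex.mul_im]
    · linear_combination a.re * h4 - a.im * q - b.re * h1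
    · linear_combination a.im * h4 + a.re * q - b.im * h1
    · linear_combination -a.re * h4 + a.im * q + b.re * h1
    · linear_combination -a.im * h4 - a.re * q + b.im * h1

theorem b5Reg_two (p : ℕ → Prop) : (∃ j < 2, p j) ↔ p 0 ∨ p 1 := by
  rw [Nat.exists_lt_succ_right, Nat.exists_lt_succ_right]
  simp

theorem b5Reg_three (p : ℕ → Prop) : (∃ j < 3, p j) ↔ (p 0 ∨ p 1) ∨ p 2 := by
  rw [Nat.exists_lt_succ_right, b5Reg_two]

theorem b5Reg_mem {N : ℕ} (hN : 0 < N) (y : ℂ) {e : ℂ} (he : ‖e‖ = 1) {s : ℝ} (hs : 0 < s)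
    (w : ℂ) : w ∈ cone N y e ∩ sphere y s ↔ ∃ j < N, w = y + s * (e * rt N ^ j) := by
  have k : ∀ (j : ℕ) (t : ℝ), 0 ≤ t → ‖y + t * (e * rt N ^ j) - y‖ = t := fun j t ht => by
    rw [add_sub_cancel_left, norm_mul, norm_mul, norm_pow, b5_rt.2.2.2.2.1, he, one_pow, mul_one,
      mul_one, Complex.norm_real, Real.norm_of_nonneg ht]
  rw [mem_inter_iff, b5_mem_cone hN, mem_sphere_iff_norm]
  constructor
  · rintro ⟨⟨j, hj, t, ht, rfl⟩, h⟩
    rw [k j t ht] at h
    exact ⟨j, hj, by rw [h]⟩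
  · rintro ⟨j, hj, rfl⟩
    exact ⟨⟨j, hj, s, hs.le, rfl⟩, k j s hs.le⟩

theorem b5_reg (h : GM c u K) (h0 : ∀ z ∉ K, fderiv ℝ u z = 0) {y : ℂ} {s : ℝ} (hs : 0 < s)
    {n : ℕ} (hn : n = 2 ∨ n = 3) (hN : (K ∩ sphere y s).encard = n) (hl : n * s ≤ lenc K y s) :
    ∃ e : ℂ, ‖e‖ = 1 ∧ K ∩ sphere y s = cone n y e ∩ sphere y s := by
  classical
  have hf : (K ∩ sphere y s).Finite := finite_of_encard_eq_coe hN
  have hP := hf.coe_toFinset
  have hc : hf.toFinset.card = n := by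
    rw [hf.encard_eq_coe_toFinset_card] at hN
    exact_mod_cast hN
  have hS := b5_sum_zero h h0 hs hP (hc ▸ hl)
  have hs' : (s : ℂ) ≠ 0 := Complex.ofReal_ne_zero.2 hs.ne'
  have hu : ∀ p ∈ hf.toFinset, ‖(p - y) / s‖ = 1 := fun p hp => by
    rw [norm_div, mem_sphere_iff_norm.1 (hf.mem_toFinset.1 hp).2, Complex.norm_real,
      Real.norm_of_nonneg hs.le, div_self hs.ne']
  have hv : ∀ p q z : ℂ, (q - y) / s = (p - y) / s * z → q = y + s * ((p - y) / s * z) :=
    fun p q z e => by rw [← e, mul_div_cancel₀ _ hs', add_sub_cancel]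
  generalize hf.toFinset = P at hP hc hS hu
  rcases hn with rfl | rfl
  · obtain ⟨a, b, hab, rfl⟩ := Finset.card_eq_two.1 hc
    rw [Finset.sum_pair hab] at hS
    have ua := hu a (by simp)
    have e0 := hv a a 1 (mul_one _).symm
    have e1 := hv a b (-1) (by linear_combination hS / s)
    refine ⟨_, ua, Set.ext fun w => ?_⟩
    rw [b5Reg_mem two_pos y ua hs, ← hP, b5_rt.2.1, b5Reg_two, pow_zero, pow_one, ← e0, ← e1]
    simp only [Finset.coe_insert, Finset.coe_singleton, mem_insert_iff, mem_singleton_iff]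
  · obtain ⟨a, b, d, hab, had, hbd, rfl⟩ := Finset.card_eq_three.1 hc
    rw [Finset.sum_insert (by simp [hab, had]), Finset.sum_pair hbd] at hS
    have ua := hu a (by simp)
    have e0 := hv a a 1 (mul_one _).symm
    refine ⟨_, ua, Set.ext fun w => ?_⟩
    rw [b5Reg_mem three_pos y ua hs, ← hP, b5Reg_three, pow_zero, pow_one, ← e0]
    rcases b5_three_vec ua (hu b (by simp)) (hu d (by simp)) (by linear_combination hS / s) with
      ⟨e1, e2⟩ | ⟨e2, e1⟩
    all_goals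
      rw [← hv _ _ _ e1, ← hv _ _ _ e2]
      simp only [Finset.coe_insert, Finset.coe_singleton, mem_insert_iff, mem_singleton_iff]
      tauto

end Vale.Agent.P128
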