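import Vale.Agent.P128.B5.Ann
import Vale.Agent.P128.B5.ConeA

/-! P128 B5/RigA (TASK): rigidity in an annulus.

Plan for `b5_cover`. Let `p j = y + t * (e * rt n ^ j) ∈ K`, `j < n`; their mutual distances are at
least `√3 t ≥ 2 h` (`b5_rt`), so the balls `ball (p j) h` are disjoint; they lie in the annulus
`A = ball y (t + h) \ closedBall y (t - h)`. If `z ∈ K ∩ A` were outside all closed balls, a small
ball `ball z ρ ⊆ A` would be disjoint from them, and `b5_LB2` would give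
`μH[1] (K ∩ A) ≥ n * 2 h + 2 ρ`, while `μH[1] (K ∩ A) = len (t + h) - lenc (t - h) ≤ 2 n h`
(`AM0.upper_real`, `measure_biUnion_finset`, `measure_union`).
Plan for `b5_radial`. Let `z ∈ K`, `t' = dist z y`, `|t' - t| < h`. For every `h' ∈ Ioc |t' - t| h`,
`b5_cover` gives `j < n` with `dist z (p j) ≤ h'`; finitely many `j`, so some `j` has
`dist z (p j) ≤ |t' - t|` (otherwise take `h'` below the minimum). With `a = z - y`, `b = p j - y`:
`‖a - b‖^2 ≤ (‖a‖ - ‖b‖)^2` gives `(a * conj b).re = ‖a‖ ‖b‖`, hence `‖t a - t' b‖^2 = 0` and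
`a = t' * (e * rt n ^ j)`. -/

namespace Vale.Agent.P128

open MeasureTheory Set Metric Filter Topology
open scoped ENNReal NNReal

variable {c : ℝ} {u : ℂ → ℝ} {K : Set ℂ}

theorem b5RigA_far {n : ℕ} (hn : n = 2 ∨ n = 3) {i j : ℕ} (hi : i < n) (hj : j < n) (hij : i ≠ j) :
    1 ≤ ‖rt n ^ i - rt n ^ j‖ := by
  obtain ⟨-, h2, h3, h4, -, -⟩ := b5_rt
  have hs : √3 ^ 2 = 3 := Real.sq_sqrt (by norm_num)
  refine (one_le_sq_iff₀ (norm_nonneg _)).1 ?_
  rw [Complex.sq_norm, Complex.normSq_apply]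
  rcases hn with rfl | rfl
  · interval_cases i <;> interval_cases j <;> simp [h2] at hij ⊢ <;> norm_num
  · interval_cases i <;> interval_cases j <;> simp only [pow_zero, pow_one, h4] at hij ⊢ <;>
      simp [h3] at hij ⊢ <;> nlinarith

theorem b5RigA_pt {y e : ℂ} (he : ‖e‖ = 1) (n j : ℕ) {t : ℝ} (ht : 0 < t) :
    dist (y + t * (e * rt n ^ j)) y = t := by
  rw [dist_eq_norm, add_sub_cancel_left, norm_mul, norm_mul, norm_pow, b5_rt.2.2.2.2.1, he,
    Complex.norm_real, Real.norm_of_nonneg ht.le]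
  simp

theorem b5_cover (h : GM c u K) (h0 : ∀ z ∉ K, fderiv ℝ u z = 0) {y e : ℂ} (he : ‖e‖ = 1)
    {n : ℕ} (hn : n = 2 ∨ n = 3) {t r : ℝ} (ht : 0 < t) (hr : 0 < r) (hrt : r ≤ t / 2)
    (hsec : K ∩ sphere y t = cone n y e ∩ sphere y t)
    (hl : len K y (t + r) ≤ lenc K y (t - r) + 2 * n * r) {z : ℂ} (hz : z ∈ K)
    (hzt : |dist z y - t| < r) : ∃ j < n, dist z (y + t * (e * rt n ^ j)) ≤ r := by
  by_contra hcon
  push Not at hcon
  obtain ⟨p, hp⟩ : ∃ p : ℕ → ℂ, ∀ j, p j = y + t * (e * rt n ^ j) := ⟨_, fun _ => rfl⟩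
  simp only [← hp] at hcon
  have pd : ∀ j, dist (p j) y = t := fun j => by rw [hp]; exact b5RigA_pt he n j ht
  have pK : ∀ j, p j ∈ K := fun j =>
    (hsec.ge ⟨⟨j, t, ht.le, hp j⟩, pd j⟩).1
  have pp : ∀ i < n, ∀ j < n, i ≠ j → t ≤ dist (p i) (p j) := fun i hi j hj hij => by
    rw [hp, hp, dist_add_left, dist_eq_norm, ← mul_sub, ← mul_sub, norm_mul, norm_mul, he,
      Complex.norm_real, Real.norm_of_nonneg ht.le, one_mul]
    exact le_mul_of_one_le_right ht.le (b5RigA_far hn hi hj hij)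
  obtain ⟨ρ, ⟨r1, r2⟩, r0⟩ : ∃ ρ : ℝ, (ρ < r - |dist z y - t| ∧
      ∀ j ∈ Finset.range n, ρ < dist z (p j) - r) ∧ 0 < ρ := by
    refine (Eventually.and (nhdsWithin_le_nhds (a := (0 : ℝ)) (s := Ioi 0) ?_) self_mem_nhdsWithin).exists
    refine (gt_mem_nhds (by linarith)).and ((eventually_all_finset _).2 fun j hj => ?_)
    exact gt_mem_nhds (by linarith [hcon j (Finset.mem_range.1 hj)])
  have hA := h.toAM0
  have mB : ∀ (w : ℂ) (s : ℝ), MeasurableSet (K ∩ ball w s) := fun w s =>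
    hA.closed.measurableSet.inter measurableSet_ball
  have up : ∀ (w : ℂ) (s : ℝ), w ∈ K → 0 < s → ENNReal.ofReal (2 * s) ≤ μH[1] (K ∩ ball w s) :=
    fun w s hw hs => by
      rw [(hA.upper_real hs (subset_univ _)).2.2.2.1]
      exact ENNReal.ofReal_le_ofReal (b5_LB2 h h0 hw hs)
  have a1 := le_abs_self (dist z y - t)
  have a2 := neg_abs_le (dist z y - t)
  have hsub : (K ∩ closedBall y (t - r) ∪ K ∩ ball z ρ) ∪
      ⋃ j ∈ Finset.range n, K ∩ ball (p j) r ⊆ K ∩ ball y (t + r) := by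
    rintro w ((hw | hw) | hw)
    · exact ⟨hw.1, closedBall_subset_ball (by linarith) hw.2⟩
    · exact ⟨hw.1, ball_subset_ball' (by linarith) hw.2⟩
    · obtain ⟨j, -, hw⟩ := mem_iUnion₂.1 hw
      exact ⟨hw.1, ball_subset_ball' (by linarith [pd j]) hw.2⟩
  have d1 : Disjoint (K ∩ closedBall y (t - r)) (K ∩ ball z ρ) :=
    (closedBall_disjoint_ball (by rw [dist_comm]; linarith)).mono inter_subset_right
      inter_subset_right
  have d2 : Disjoint (K ∩ closedBall y (t - r) ∪ K ∩ ball z ρ)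
      (⋃ j ∈ Finset.range n, K ∩ ball (p j) r) := by
    refine disjoint_iUnion₂_right.2 fun j hj => disjoint_union_left.2 ⟨?_, ?_⟩
    · exact (closedBall_disjoint_ball (by rw [dist_comm]; linarith [pd j])).mono
        inter_subset_right inter_subset_right
    · exact (ball_disjoint_ball (by linarith [r2 j hj])).mono inter_subset_right inter_subset_right
  have d3 : ((Finset.range n : Finset ℕ) : Set ℕ).PairwiseDisjoint fun j => K ∩ ball (p j) r :=
    fun i hi j hj hij => (ball_disjoint_ball (by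
      linarith [pp i (Finset.mem_range.1 hi) j (Finset.mem_range.1 hj) hij])).mono
        inter_subset_right inter_subset_right
  have k := measure_mono (μ := μH[1]) hsub
  rw [measure_union d2 (Finset.measurableSet_biUnion _ fun j _ => mB _ _),
    measure_union d1 (mB _ _), measure_biUnion_finset d3 fun j _ => mB _ _,
    (hA.upper_real (y := y) (r := t - r) (by linarith) (subset_univ _)).2.2.1,
    (hA.upper_real (y := y) (r := t + r) (by linarith) (subset_univ _)).2.2.2.1] at k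
  have k1 : ENNReal.ofReal (n * (2 * r)) ≤ ∑ j ∈ Finset.range n, μH[1] (K ∩ ball (p j) r) := by
    refine le_trans (le_of_eq ?_) (Finset.sum_le_sum fun j _ => up (p j) r (pK j) hr)
    rw [Finset.sum_const, Finset.card_range, nsmul_eq_mul, ENNReal.ofReal_mul (Nat.cast_nonneg n),
      ENNReal.ofReal_natCast]
  have l0 : 0 ≤ lenc K y (t - r) := ENNReal.toReal_nonneg
  have k2 := (add_le_add (add_le_add le_rfl (up z ρ hz r0)) k1).trans k
  rw [← ENNReal.ofReal_add l0 (by positivity),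
    ← ENNReal.ofReal_add (by positivity) (by positivity),
    ENNReal.ofReal_le_ofReal_iff (show 0 ≤ len K y (t + r) from ENNReal.toReal_nonneg)] at k2
  linarith

theorem b5_radial (h : GM c u K) (h0 : ∀ z ∉ K, fderiv ℝ u z = 0) {y e : ℂ} (he : ‖e‖ = 1)
    {n : ℕ} (hn : n = 2 ∨ n = 3) {t r : ℝ} (ht : 0 < t) (hrt : r ≤ t / 2)
    (hsec : K ∩ sphere y t = cone n y e ∩ sphere y t)
    (hl : ∀ r', 0 < r' → r' ≤ r → len K y (t + r') ≤ lenc K y (t - r') + 2 * n * r') {z : ℂ}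
    (hz : z ∈ K) (hzt : |dist z y - t| < r) : z ∈ cone n y e := by
  obtain ⟨j, -, hj⟩ : ∃ j < n, dist z (y + t * (e * rt n ^ j)) ≤ |dist z y - t| := by
    by_contra hcon
    push Not at hcon
    obtain ⟨r', ⟨r1, r2⟩, r0⟩ : ∃ r' : ℝ, (r' < r ∧
        ∀ j ∈ Finset.range n, r' < dist z (y + t * (e * rt n ^ j))) ∧ |dist z y - t| < r' := by
      refine (Eventually.and (nhdsWithin_le_nhds (a := |dist z y - t|)
        (s := Ioi |dist z y - t|) ?_)
        self_mem_nhdsWithin).exists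
      exact (gt_mem_nhds hzt).and ((eventually_all_finset _).2 fun j hj =>
        gt_mem_nhds (hcon j (Finset.mem_range.1 hj)))
    have r3 : 0 < r' := (abs_nonneg _).trans_lt r0
    obtain ⟨j, hj, k⟩ := b5_cover h h0 he hn ht r3 (by linarith) hsec (hl r' r3 r1.le) hz r0
    exact absurd (r2 j (Finset.mem_range.2 hj)) (not_lt.2 k)
  refine ⟨j, dist z y, dist_nonneg, ?_⟩
  have hv : ‖e * rt n ^ j‖ = 1 := by
    rw [norm_mul, norm_pow, b5_rt.2.2.2.2.1, he]
    simp
  generalize e * rt n ^ j = v at hj hv ⊢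
  rw [dist_eq_norm, dist_eq_norm, ← sub_sub] at hj
  rw [dist_eq_norm, ← sub_eq_iff_eq_add']
  generalize z - y = a at hj ⊢
  have k := pow_le_pow_left₀ (norm_nonneg _) hj 2
  have e1 : ‖a‖ ^ 2 = a.re * a.re + a.im * a.im := by rw [Complex.sq_norm, Complex.normSq_apply]
  have e2 : v.re * v.re + v.im * v.im = 1 := by
    rw [← Complex.normSq_apply, ← Complex.sq_norm, hv, one_pow]
  rw [sq_abs, Complex.sq_norm, Complex.normSq_apply] at k
  simp only [Complex.sub_re, Complex.sub_im, Complex.re_ofReal_mul, Complex.im_ofReal_mul] at k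
  have k1 : ‖a‖ ≤ a.re * v.re + a.im * v.im := by
    refine le_of_mul_le_mul_left ?_ ht
    have e3 : t ^ 2 * (v.re * v.re + v.im * v.im) = t ^ 2 := by rw [e2, mul_one]
    linarith
  have k2 : ‖a - (‖a‖ : ℝ) * v‖ ^ 2 ≤ 0 := by
    rw [Complex.sq_norm, Complex.normSq_apply]
    simp only [Complex.sub_re, Complex.sub_im, Complex.re_ofReal_mul, Complex.im_ofReal_mul]
    have e3 : ‖a‖ ^ 2 * (v.re * v.re + v.im * v.im) = ‖a‖ ^ 2 := by rw [e2, mul_one]
    linarith [mul_le_mul_of_nonneg_left k1 (norm_nonneg a)]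
  exact sub_eq_zero.1 (norm_eq_zero.1 (pow_eq_zero_iff two_ne_zero |>.1
    (le_antisymm k2 (sq_nonneg _))))

end Vale.Agent.P128
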