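import Vale.Agent.P128.B5.RigA
import Vale.Agent.P128.B5.Reg

/-! P128 B5/RigB (TASK): linear length forces a cone.

Plan for `b5_loc_const`. For `s ∈ Ioo a b` choose `δ s` and a point `g s ∈ G ∩ ball s (δ s)`
(density); `F s = E (g s)` is locally constant on `Ioo a b` (for `s'` near `s` take a point of `G` in
`ball s' (δ s') ∩ ball s (δ s)`), hence constant (`IsPreconnected.induction₂'`, or
`IsPreconnected.constant` after passing to a discrete type, or `IsLocallyConstant` on the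
subtype), and `F t = E t` for `t ∈ G`.
Plan for `b5_good`. For almost every `t` the section is finite (`diz_fin`) with
`n t = lenc ≤ card * t` (`b5_T6_center`), so `n ≤ N t`; and `∫⁻ N ≤ len K y s₁ ≤ n s₁`
(`eilenberg_sphere`), so `N = n` almost everywhere (`ae_eq_of_ae_le_of_lintegral_le`).
Plan for `b5_rig`. `G` = radii in `Ioo 0 s₁` with `N t = n` (dense: `Measure.dense_of_ae` after
`ae_restrict_iff'`), `e t` from `b5_reg`, `E t = cone n y (e t)`. For `s ∈ Ioo 0 s₁`,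
`δ = min s (s₁ - s) / 10`, `t, t' ∈ G ∩ ball s δ`: `b5_radial` with `r = 2 δ` (`len ≤ lenc`) puts
`y + t' * e t' ∈ K` in `E t`, so `E t' = E t` by `b5_cone_of_mem`. Then both inclusions: a point of `K`
at radius `t' ∈ Ioo 0 s₁` is in `E t` for `t ∈ G` near `t'`; a point `y + t' (e rt^j)` is a limit of
the points `y + t (e rt^j) ∈ K`, `t ∈ G` (`IsClosed` preimage and `closure_mono`). -/

namespace Vale.Agent.P128

open MeasureTheory Set Metric Filter Topology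
open scoped ENNReal NNReal

variable {c : ℝ} {u : ℂ → ℝ} {K : Set ℂ}

theorem b5_loc_const {X : Type*} {a b : ℝ} {G : Set ℝ} (hG : ∀ s ∈ Ioo a b, s ∈ closure G)
    {E : ℝ → X} (hE : ∀ s ∈ Ioo a b, ∃ δ : ℝ, 0 < δ ∧
      ∀ t ∈ G ∩ ball s δ, ∀ t' ∈ G ∩ ball s δ, E t = E t') :
    ∀ t ∈ G ∩ Ioo a b, ∀ t' ∈ G ∩ Ioo a b, E t = E t' := by
  choose! δ hδ hE using hE
  have hg : ∀ s ∈ Ioo a b, ∃ g, g ∈ G ∩ ball s (δ s) := fun s hs => by
    obtain ⟨g, h1, h2⟩ := mem_closure_iff.1 (hG s hs) _ isOpen_ball (mem_ball_self (hδ s hs))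
    exact ⟨g, h2, h1⟩
  choose! g hg using hg
  have key : ∀ s ∈ Ioo a b, ∀ s' ∈ Ioo a b, E (g s) = E (g s') := fun s hs s' hs' => by
    refine isPreconnected_Ioo.induction₂' (fun s s' => E (g s) = E (g s')) (fun x hx => ?_)
      (fun _ _ _ _ _ _ h1 h2 => h1.trans h2) hs hs'
    filter_upwards [self_mem_nhdsWithin, nhdsWithin_le_nhds (ball_mem_nhds x (hδ x hx))]
      with v hv hv'
    obtain ⟨w, h1, h2⟩ := mem_closure_iff.1 (hG v hv) _ (isOpen_ball.inter isOpen_ball)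
      ⟨mem_ball_self (hδ v hv), hv'⟩
    have e := (hE x hx _ (hg x hx) w ⟨h2, h1.2⟩).trans (hE v hv w ⟨h2, h1.1⟩ _ (hg v hv))
    exact ⟨e, e.symm⟩
  intro t ht t' ht'
  exact (hE t ht.2 t ⟨ht.1, mem_ball_self (hδ t ht.2)⟩ _ (hg t ht.2)).trans
    ((key t ht.2 t' ht'.2).trans (hE t' ht'.2 _ (hg t' ht'.2) t' ⟨ht'.1, mem_ball_self (hδ t' ht'.2)⟩))

theorem b5_good (h : GM c u K) (h0 : ∀ z ∉ K, fderiv ℝ u z = 0) {y : ℂ} {n : ℕ} {s₁ : ℝ}
    (hs : 0 < s₁) (hl : ∀ t ∈ Ioc 0 s₁, lenc K y t = n * t) :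
    ∀ᵐ t ∂(volume.restrict (Ioo 0 s₁)), (K ∩ sphere y t).encard = n := by
  obtain ⟨hm, hI⟩ := eilenberg_sphere h.closed y
  have h1 : (fun _ : ℝ => (n : ℝ≥0∞)) ≤ᵐ[volume.restrict (Ioo 0 s₁)]
      fun t => ((K ∩ sphere y t).encard : ℝ≥0∞) := by
    filter_upwards [diz_fin h.toAM0 hs (subset_univ (closedBall y s₁)),
      ae_restrict_mem measurableSet_Ioo] with t ht ht'
    have k1 := b5_T6_center h h0 ht'.1 ht.coe_toFinset
    rw [hl t ⟨ht'.1, ht'.2.le⟩] at k1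
    have k2 : n ≤ ht.toFinset.card := by exact_mod_cast le_of_mul_le_mul_right k1 ht'.1
    rw [ht.encard_eq_coe_toFinset_card]
    exact_mod_cast k2
  have h2 : ∫⁻ _ in Ioo 0 s₁, (n : ℝ≥0∞) = ENNReal.ofReal (n * s₁) := by
    rw [setLIntegral_const, Real.volume_Ioo, sub_zero, ENNReal.ofReal_mul (Nat.cast_nonneg n),
      ENNReal.ofReal_natCast]
  have h3 := ae_eq_of_ae_le_of_lintegral_le h1 (by rw [h2]; exact ENNReal.ofReal_ne_top)
    hm.aemeasurable (by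
      rw [h2, ← hl s₁ ⟨hs, le_rfl⟩, ← (h.toAM0.upper_real hs (subset_univ _)).2.2.1]
      exact (hI _ measurableSet_Ioo).trans
        (measure_mono (inter_subset_inter_right _ fun z hz => hz.2.le)))
  filter_upwards [h3] with t ht
  exact_mod_cast ht.symm

theorem b5_rig (h : GM c u K) (h0 : ∀ z ∉ K, fderiv ℝ u z = 0) {y : ℂ} (hy : y ∈ K) {n : ℕ}
    (hn : n = 2 ∨ n = 3) {s₁ : ℝ} (hs : 0 < s₁) (hl : ∀ t ∈ Ioc 0 s₁, lenc K y t = n * t) :
    ∃ e : ℂ, ‖e‖ = 1 ∧ K ∩ ball y s₁ = cone n y e ∩ ball y s₁ := by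
  have hn0 : 0 < n := by omega
  set G : Set ℝ := {t | t ∈ Ioo 0 s₁ ∧ (K ∩ sphere y t).encard = n} with hGdef
  have hG : ∀ s ∈ Ioo 0 s₁, s ∈ closure G := by
    intro s hs'
    have h1 := (ae_restrict_iff' measurableSet_Ioo).1 (b5_good h h0 hs hl)
    have h2 := (Measure.dense_of_ae h1).open_subset_closure_inter isOpen_Ioo hs'
    refine closure_mono ?_ h2
    exact fun t ht => ⟨ht.1, ht.2 ht.1⟩
  have he : ∀ t ∈ G, ∃ e : ℂ, ‖e‖ = 1 ∧ K ∩ sphere y t = cone n y e ∩ sphere y t :=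
    fun t ht => b5_reg h h0 ht.1.1 hn ht.2 (hl t ⟨ht.1.1, ht.1.2.le⟩).ge
  choose! e he1 he2 using he
  have hpt : ∀ t ∈ G, ∀ j : ℕ, y + t * (e t * rt n ^ j) ∈ K := fun t ht j =>
    ((he2 t ht).ge ⟨⟨j, t, ht.1.1.le, rfl⟩, b5RigA_pt (he1 t ht) n j ht.1.1⟩).1
  have rad : ∀ s ∈ Ioo 0 s₁, ∃ δ : ℝ, 0 < δ ∧ ∀ t ∈ G ∩ ball s δ, ∀ z ∈ K,
      dist z y ∈ ball s δ → z ∈ cone n y (e t) := by
    intro s hs'
    have m1 := min_le_left s (s₁ - s)
    have m2 := min_le_right s (s₁ - s)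
    have m0 : 0 < min s (s₁ - s) := lt_min hs'.1 (sub_pos.2 hs'.2)
    refine ⟨min s (s₁ - s) / 10, by positivity, fun t ht z hz hd => ?_⟩
    have k1 := abs_lt.1 (show |t - s| < _ from ht.2)
    have k2 := abs_lt.1 (show |dist z y - s| < _ from hd)
    refine b5_radial h h0 (he1 t ht.1) hn ht.1.1.1 (r := min s (s₁ - s) / 5) (by linarith)
      (he2 t ht.1) (fun r' r0 r1 => ?_) hz (abs_lt.2 ⟨by linarith, by linarith⟩)
    have k3 := (h.toAM0.upper_real (y := y) (r := t + r') (by linarith) (subset_univ _)).2.2.2.2.2.2.2.1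
    rw [hl (t + r') ⟨by linarith, by linarith⟩] at k3
    rw [hl (t - r') ⟨by linarith, by linarith⟩]
    linarith
  have hc := b5_loc_const hG (E := fun t => cone n y (e t)) fun s hs' => by
    obtain ⟨δ, hδ, H⟩ := rad s hs'
    refine ⟨δ, hδ, fun t ht t' ht' => (b5_cone_of_mem hn0 (he1 t ht.1) (he1 t' ht'.1) ht'.1.1.1 ?_).symm⟩
    have k1 := hpt t' ht'.1 0
    have k2 := b5RigA_pt (y := y) (he1 t' ht'.1) n 0 ht'.1.1.1
    rw [pow_zero, mul_one] at k1 k2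
    exact H t ht _ k1 (by rw [k2]; exact ht'.2)
  obtain ⟨t₀, ht₀⟩ : G.Nonempty :=
    closure_nonempty_iff.1 ⟨s₁ / 2, hG _ ⟨half_pos hs, half_lt_self hs⟩⟩
  refine ⟨e t₀, he1 t₀ ht₀, Subset.antisymm (fun z hz => ⟨?_, hz.2⟩) fun z hz => ⟨?_, hz.2⟩⟩
  · rcases eq_or_ne z y with rfl | hzy
    · exact ⟨0, 0, le_rfl, by simp⟩
    · have hd : dist z y ∈ Ioo 0 s₁ := ⟨dist_pos.2 hzy, hz.2⟩
      obtain ⟨δ, hδ, H⟩ := rad _ hd
      obtain ⟨t, h1, h2⟩ := mem_closure_iff.1 (hG _ hd) _ isOpen_ball (mem_ball_self hδ)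
      rw [← hc t ⟨h2, h2.1⟩ t₀ ⟨ht₀, ht₀.1⟩]
      exact H t ⟨h2, h1⟩ z hz.1 (mem_ball_self hδ)
  · obtain ⟨⟨j, t', ht', rfl⟩, hb⟩ := hz
    rcases ht'.eq_or_lt with rfl | ht'
    · simpa using hy
    · rw [mem_ball, b5RigA_pt (he1 t₀ ht₀) n j ht'] at hb
      have hcl : IsClosed {t : ℝ | y + t * (e t₀ * rt n ^ j) ∈ K} :=
        h.closed.preimage (by fun_prop)
      refine closure_minimal (fun t ht => ?_) hcl (hG t' ⟨ht', hb⟩)
      refine ((he2 t ht).ge ⟨?_, b5RigA_pt (he1 t₀ ht₀) n j ht.1.1⟩).1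
      rw [hc t ⟨ht, ht.1⟩ t₀ ⟨ht₀, ht₀.1⟩]
      exact ⟨j, t, ht.1.1.le, rfl⟩

end Vale.Agent.P128
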